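import Mathlib

/-!
# From walks on Gaussian primes to walks on residues coprime to a modulus
-/

namespace Vale.Agent.Lib.P015

/-- A Gaussian prime dividing a nonzero natural number divides one of its prime factors. -/
theorem prime_dvd_natCast (z : GaussianInt) (hz : Prime z) :
    ∀ n : ℕ, n ≠ 0 → z ∣ (n : GaussianInt) → ∃ q : ℕ, q.Prime ∧ z ∣ (q : GaussianInt) := by
  intro n
  induction n using Nat.recOnMul with
  | zero => intro h; exact absurd rfl h
  | one =>
    intro _ h
    exact absurd (isUnit_of_dvd_one (by simpa using h)) hz.not_isUnit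
  | prime p hp => intro _ h; exact ⟨p, hp, h⟩
  | mul a b iha ihb =>
    intro hab h
    rw [Nat.cast_mul] at h
    rcases hz.dvd_or_dvd h with h' | h'
    · exact iha (fun h0 => hab (by simp [h0])) h'
    · exact ihb (fun h0 => hab (by simp [h0])) h'

/-- The norm of a Gaussian prime which is not coprime to `M` is at most `M ^ 2`. -/
theorem norm_le_of_gcd_ne_one (M : ℕ) (hM : 0 < M) (z : GaussianInt) (hz : Prime z)
    (h : Int.gcd z.norm M ≠ 1) : z.norm ≤ (M : ℤ) ^ 2 := by
  obtain ⟨p, hp, hpg⟩ := Nat.exists_prime_and_dvd h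
  have hpn : (p : ℤ) ∣ z.norm := Int.dvd_trans (Int.natCast_dvd_natCast.2 hpg) (Int.gcd_dvd_left _ _)
  have hpM : p ∣ M := by
    have : (p : ℤ) ∣ (M : ℤ) := Int.dvd_trans (Int.natCast_dvd_natCast.2 hpg) (Int.gcd_dvd_right _ _)
    exact Int.natCast_dvd_natCast.1 this
  have hnn : 0 ≤ z.norm := GaussianInt.norm_nonneg z
  have hn0 : z.norm ≠ 0 := by
    intro h0
    exact hz.ne_zero ((Zsqrtd.norm_eq_zero_iff (by norm_num) z).1 h0)
  have hdvd : z ∣ ((z.norm.natAbs : ℕ) : GaussianInt) := by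
    have e : ((z.norm.natAbs : ℕ) : GaussianInt) = ((z.norm : ℤ) : GaussianInt) := by
      rw [← Int.cast_natCast, Int.natAbs_of_nonneg hnn]
    rw [e, Zsqrtd.norm_eq_mul_conj]
    exact dvd_mul_right _ _
  obtain ⟨q, hq, hzq⟩ := prime_dvd_natCast z hz _ (by simpa using hn0) hdvd
  obtain ⟨c, hc⟩ := hzq
  have hnorm : z.norm * c.norm = (q : ℤ) * q := by
    have := congrArg Zsqrtd.norm hc
    rw [Zsqrtd.norm_mul, Zsqrtd.norm_natCast] at this
    exact this.symm
  have hpq : (p : ℤ) ∣ (q : ℤ) * q := by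
    rw [← hnorm]; exact Dvd.dvd.mul_right hpn _
  have hpq' : p ∣ q := by
    have h1 : p ∣ q * q := by exact_mod_cast hpq
    rcases (Nat.Prime.dvd_mul hp).1 h1 with h2 | h2 <;> exact h2
  have hpq_eq : p = q := (Nat.prime_dvd_prime_iff_eq hp hq).1 hpq'
  have hle : z.norm ≤ (q : ℤ) * q := by
    have hdv : z.norm ∣ (q : ℤ) * q := ⟨c.norm, hnorm.symm⟩
    have hpos : (0 : ℤ) < (q : ℤ) * q := by
      have : (0 : ℤ) < q := by exact_mod_cast hq.pos
      positivity
    exact Int.le_of_dvd hpos hdv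
  have hqM : (q : ℤ) ≤ M := by
    rw [← hpq_eq]
    exact_mod_cast Nat.le_of_dvd hM hpM
  have hq0 : (0 : ℤ) ≤ q := by positivity
  nlinarith

/-- Only finitely many Gaussian integers have norm at most `C`. -/
theorem finite_norm_le (C : ℤ) : {w : GaussianInt | w.norm ≤ C}.Finite := by
  have hfin : (Set.Icc (-C) C ×ˢ Set.Icc (-C) C : Set (ℤ × ℤ)).Finite :=
    (Set.finite_Icc _ _).prod (Set.finite_Icc _ _)
  have hinj : Set.InjOn (fun w : GaussianInt => (w.re, w.im)) {w : GaussianInt | w.norm ≤ C} := by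
    intro a _ b _ hab
    simp only [Prod.mk.injEq] at hab
    exact Zsqrtd.ext hab.1 hab.2
  refine Set.Finite.of_finite_image (hfin.subset ?_) hinj
  rintro _ ⟨w, hw, rfl⟩
  have hw' : w.norm ≤ C := hw
  rw [Zsqrtd.norm_def] at hw'
  have h1 : w.re * w.re ≤ C := by nlinarith [mul_self_nonneg w.im]
  have h2 : w.im * w.im ≤ C := by nlinarith [mul_self_nonneg w.re]
  refine ⟨⟨?_, ?_⟩, ⟨?_, ?_⟩⟩ <;> nlinarith

/-- Reduction of walks on Gaussian primes with steps in `d * U` to walks with steps in `U`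
on the lattice points whose norm is coprime to `M`. -/
theorem no_walk_of_core (M : ℕ) (hM : 0 < M) (U : ℤ → ℤ → Prop)
    (core : ∀ p : ℕ → ℤ × ℤ, (∀ n, Int.gcd ((p n).1 ^ 2 + (p n).2 ^ 2) M = 1) →
      (∀ n, U ((p (n + 1)).1 - (p n).1) ((p (n + 1)).2 - (p n).2)) → ¬ Function.Injective p)
    (d : GaussianInt) (hd : IsCoprime d (M : GaussianInt))
    (z : ℕ → GaussianInt) (hz : ∀ n, Prime (z n)) (hinj : Function.Injective z) :
    ¬ ∀ n, ∃ u : GaussianInt, U u.re u.im ∧ z (n + 1) - z n = d * u := by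
  intro hsteps
  -- the tail of the walk avoids the primes dividing `M`
  have hfin : (z ⁻¹' {w : GaussianInt | w.norm ≤ (M : ℤ) ^ 2}).Finite :=
    Set.Finite.preimage hinj.injOn (finite_norm_le ((M : ℤ) ^ 2))
  obtain ⟨N, hN⟩ := hfin.bddAbove
  have htail : ∀ n, Int.gcd (z (N + 1 + n)).norm M = 1 := by
    intro n
    by_contra hne
    have hmem : (N + 1 + n) ∈ z ⁻¹' {w : GaussianInt | w.norm ≤ (M : ℤ) ^ 2} :=
      norm_le_of_gcd_ne_one M hM _ (hz _) hne
    have := hN hmem
    omega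
  choose u hu1 hu2 using hsteps
  obtain ⟨a, b, hab⟩ := hd
  let w : ℕ → GaussianInt := fun n => ∑ k ∈ Finset.range n, u (N + 1 + k)
  have hw : ∀ n, z (N + 1 + n) = z (N + 1) + d * w n := by
    intro n
    induction n with
    | zero => simp [w]
    | succ n ih =>
      have h1 := hu2 (N + 1 + n)
      have h2 : w (n + 1) = w n + u (N + 1 + n) := Finset.sum_range_succ _ _
      rw [h2]
      linear_combination h1 + ih
  let v : ℕ → GaussianInt := fun n => w n + a * z (N + 1)
  have hdv : ∀ n, d * v n = z (N + 1 + n) - (M : GaussianInt) * (b * z (N + 1)) := by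
    intro n
    have h1 := hw n
    have h2 : a * d = 1 - b * (M : GaussianInt) := by rw [← hab]; ring
    calc d * v n = d * w n + (a * d) * z (N + 1) := by simp only [v]; ring
      _ = z (N + 1 + n) - (M : GaussianInt) * (b * z (N + 1)) := by rw [h2, h1]; ring
  have hgcd : ∀ n, Int.gcd ((v n).re ^ 2 + (v n).im ^ 2) M = 1 := by
    intro n
    have h1 := congrArg Zsqrtd.norm (hdv n)
    rw [Zsqrtd.norm_mul] at h1
    have h2 : ∃ k : ℤ, (z (N + 1 + n) - (M : GaussianInt) * (b * z (N + 1))).norm =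
        (z (N + 1 + n)).norm + (M : ℤ) * k := by
      refine ⟨-2 * ((z (N + 1 + n)).re * (b * z (N + 1)).re +
        (z (N + 1 + n)).im * (b * z (N + 1)).im) +
        (M : ℤ) * ((b * z (N + 1)).re ^ 2 + (b * z (N + 1)).im ^ 2), ?_⟩
      generalize z (N + 1 + n) = A
      generalize b * z (N + 1) = C
      simp only [Zsqrtd.norm_def, Zsqrtd.re_sub, Zsqrtd.im_sub, Zsqrtd.re_mul, Zsqrtd.im_mul,
        Zsqrtd.re_natCast, Zsqrtd.im_natCast]
      ring
    obtain ⟨k, hk⟩ := h2
    rw [hk] at h1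
    have h3 : (v n).re ^ 2 + (v n).im ^ 2 = (v n).norm := by
      rw [Zsqrtd.norm_def]; ring
    rw [h3]
    have hcop : IsCoprime (z (N + 1 + n)).norm (M : ℤ) := Int.isCoprime_iff_gcd_eq_one.2 (htail n)
    obtain ⟨α, β, hαβ⟩ := hcop
    rw [← Int.isCoprime_iff_gcd_eq_one]
    refine ⟨α * d.norm, β - α * k, ?_⟩
    have : (z (N + 1 + n)).norm = d.norm * (v n).norm - (M : ℤ) * k := by linarith
    rw [this] at hαβ
    linarith
  refine core (fun n => ((v n).re, (v n).im)) hgcd ?_ ?_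
  · intro n
    have h2 : w (n + 1) = w n + u (N + 1 + n) := Finset.sum_range_succ _ _
    have h3 : v (n + 1) = v n + u (N + 1 + n) := by simp only [v, h2]; ring
    have h4 : (v (n + 1)).re - (v n).re = (u (N + 1 + n)).re := by
      rw [h3, Zsqrtd.re_add]; ring
    have h5 : (v (n + 1)).im - (v n).im = (u (N + 1 + n)).im := by
      rw [h3, Zsqrtd.im_add]; ring
    show U ((v (n + 1)).re - (v n).re) ((v (n + 1)).im - (v n).im)
    rw [h4, h5]
    exact hu1 _
  · intro n m hnm
    simp only [Prod.mk.injEq] at hnm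
    have h1 : v n = v m := Zsqrtd.ext hnm.1 hnm.2
    have h2 : w n = w m := by
      simp only [v] at h1
      exact add_right_cancel h1
    have h3 : z (N + 1 + n) = z (N + 1 + m) := by rw [hw n, hw m, h2]
    have := hinj h3
    omega

end Vale.Agent.Lib.P015
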