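import Mathlib
import Vale.Agent.Lib.P015.Gauss

/-!
# Walls of composite Gaussian integers across thin regions around the real axis

Given pairwise coprime moduli `m i > 1` with `m i ∣ c i ^ 2 + 1`, the Chinese remainder theorem
produces, in every window of length `∏ i < (D + 1) * (2 * K + 1), m i` of the real axis, a
rectangle `[x0, x0 + D] × [-K, K]` all of whose lattice points have norm divisible by some
`m i`.  A walk with steps of length at most `D` which stays in the region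
`∏ i < (D + 1) * (2 * |Im z| + 1), m i ≤ |Re z|` has to step into such a rectangle.
-/

namespace Vale.Agent.Lib.P015

/-- A Gaussian integer whose norm is divisible by `m > 1` and exceeds `m ^ 2` is not prime. -/
theorem not_prime_of_dvd_norm (m : ℕ) (hm : 1 < m) (z : GaussianInt)
    (hdvd : (m : ℤ) ∣ z.norm) (hbig : (m : ℤ) ^ 2 < z.norm) : ¬ Prime z := by
  intro hz
  have hne : Int.gcd z.norm (m : ℤ) ≠ 1 := by
    intro h1
    have h2 : (m : ℤ) ∣ ((Int.gcd z.norm (m : ℤ) : ℕ) : ℤ) := Int.dvd_coe_gcd hdvd (dvd_refl _)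
    rw [h1] at h2
    have h3 : m ∣ 1 := by exact_mod_cast h2
    have := Nat.le_of_dvd (by norm_num) h3
    omega
  have h := norm_le_of_gcd_ne_one m (by omega) z hz hne
  linarith

/-- The product of the first `k` moduli, as an integer. -/
def modProd (m : ℕ → ℕ) (k : ℕ) : ℤ := ∏ i ∈ Finset.range k, (m i : ℤ)

theorem modProd_succ (m : ℕ → ℕ) (k : ℕ) : modProd m (k + 1) = modProd m k * (m k : ℤ) :=
  Finset.prod_range_succ _ _

theorem modProd_pos (m : ℕ → ℕ) (hm : ∀ i, 1 < m i) (k : ℕ) : 0 < modProd m k := by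
  unfold modProd
  refine Finset.prod_pos (fun i _ => ?_)
  have := hm i
  positivity

theorem modProd_add_ge (m : ℕ → ℕ) (hm : ∀ i, 1 < m i) (k j : ℕ) :
    modProd m k * 2 ^ j ≤ modProd m (k + j) := by
  induction j with
  | zero => simp
  | succ j ih =>
    rw [← add_assoc, modProd_succ, pow_succ]
    have h2 : (2 : ℤ) ≤ (m (k + j) : ℤ) := by exact_mod_cast hm (k + j)
    have h0 := modProd_pos m hm k
    have h1 : (0 : ℤ) ≤ modProd m k * 2 ^ j := by positivity
    calc modProd m k * (2 ^ j * 2) = (modProd m k * 2 ^ j) * 2 := by ring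
      _ ≤ modProd m (k + j) * (m (k + j) : ℤ) := mul_le_mul ih h2 (by norm_num) (le_trans h1 ih)

theorem modProd_mono (m : ℕ → ℕ) (hm : ∀ i, 1 < m i) {k l : ℕ} (h : k ≤ l) :
    modProd m k ≤ modProd m l := by
  obtain ⟨j, rfl⟩ := Nat.exists_eq_add_of_le h
  have h1 := modProd_add_ge m hm k j
  have h0 := modProd_pos m hm k
  have h2 : (1 : ℤ) ≤ 2 ^ j := one_le_pow₀ (by norm_num)
  nlinarith

theorem two_pow_le_modProd (m : ℕ → ℕ) (hm : ∀ i, 1 < m i) (k : ℕ) :
    (2 : ℤ) ^ k ≤ modProd m k := by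
  have h := modProd_add_ge m hm 0 k
  simpa [modProd] using h

theorem le_modProd (m : ℕ → ℕ) (hm : ∀ i, 1 < m i) {i k : ℕ} (h : i < k) :
    (m i : ℤ) ≤ modProd m k := by
  have h1 : modProd m (i + 1) ≤ modProd m k := modProd_mono m hm h
  rw [modProd_succ] at h1
  have h0 := modProd_pos m hm i
  have h2 : (0 : ℤ) ≤ (m i : ℤ) := by positivity
  nlinarith

/-- Existence of a wall: in every window of length `modProd m ((D + 1) * (2 * K + 1))` there is
a rectangle `[x0, x0 + D] × [-K, K]` in which every lattice point has norm divisible by one of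
the first `(D + 1) * (2 * K + 1)` moduli. -/
theorem exists_wall (m : ℕ → ℕ) (c : ℕ → ℤ) (hm : ∀ i, 1 < m i)
    (hc : ∀ i, (m i : ℤ) ∣ c i ^ 2 + 1)
    (hcop : ∀ i j, i ≠ j → Nat.Coprime (m i) (m j)) (D K : ℕ) (X : ℤ) :
    ∃ x0 : ℤ, X ≤ x0 ∧ x0 < X + modProd m ((D + 1) * (2 * K + 1)) ∧
      ∀ x y : ℤ, x0 ≤ x → x ≤ x0 + D → |y| ≤ K →
        ∃ i, i < (D + 1) * (2 * K + 1) ∧ (m i : ℤ) ∣ x ^ 2 + y ^ 2 := by
  obtain ⟨n, hn⟩ : ∃ n, n = (D + 1) * (2 * K + 1) := ⟨_, rfl⟩
  rw [← hn]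
  let r : Fin n → ℤ := fun i =>
    c i * ((((i : ℕ) % (2 * K + 1) : ℕ) : ℤ) - K) - (((i : ℕ) / (2 * K + 1) : ℕ) : ℤ)
  have hI : Pairwise (Function.onFun IsCoprime fun i : Fin n => Ideal.span {(m i : ℤ)}) := by
    intro i j hij
    rw [Function.onFun, Ideal.isCoprime_span_singleton_iff]
    exact Nat.isCoprime_iff_coprime.2 (hcop i j (fun h => hij (Fin.ext h)))
  obtain ⟨x1, hx1⟩ := Ideal.exists_forall_sub_mem_ideal hI r
  have hQpos : 0 < modProd m n := modProd_pos m hm n
  refine ⟨X + (x1 - X) % modProd m n, ?_, ?_, ?_⟩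
  · have := Int.emod_nonneg (x1 - X) hQpos.ne'
    linarith
  · have := Int.emod_lt_of_pos (x1 - X) hQpos
    linarith
  · intro x y hxl hxu hy
    rw [abs_le] at hy
    obtain ⟨a, ha⟩ : ∃ a : ℕ, x = X + (x1 - X) % modProd m n + a :=
      ⟨(x - (X + (x1 - X) % modProd m n)).toNat, by omega⟩
    obtain ⟨t, ht⟩ : ∃ t : ℕ, y = (t : ℤ) - K := ⟨(y + K).toNat, by omega⟩
    have haD : a ≤ D := by omega
    have htK : t ≤ 2 * K := by omega
    have hi : a * (2 * K + 1) + t < n := by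
      rw [hn]
      have : a * (2 * K + 1) + t < (a + 1) * (2 * K + 1) := by nlinarith
      exact lt_of_lt_of_le this (Nat.mul_le_mul_right _ (by omega))
    refine ⟨a * (2 * K + 1) + t, hi, ?_⟩
    have h1 := hx1 ⟨a * (2 * K + 1) + t, hi⟩
    rw [Ideal.mem_span_singleton] at h1
    have e1 : (a * (2 * K + 1) + t) % (2 * K + 1) = t := by
      rw [Nat.mul_comm, Nat.mul_add_mod]
      exact Nat.mod_eq_of_lt (by omega)
    have e2 : (a * (2 * K + 1) + t) / (2 * K + 1) = a := by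
      rw [Nat.mul_comm, Nat.mul_add_div (by omega), Nat.div_eq_of_lt (by omega)]
      rfl
    have hr : r ⟨a * (2 * K + 1) + t, hi⟩ =
        c (a * (2 * K + 1) + t) * ((t : ℤ) - K) - a := by
      simp only [r, e1, e2]
    rw [hr] at h1
    have hmQ : (m (a * (2 * K + 1) + t) : ℤ) ∣ modProd m n :=
      Finset.dvd_prod_of_mem _ (Finset.mem_range.2 hi)
    have hQd : modProd m n ∣ (x1 - X) % modProd m n - (x1 - X) := by
      refine ⟨-((x1 - X) / modProd m n), ?_⟩
      have := Int.emod_add_mul_ediv (x1 - X) (modProd m n)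
      linarith
    have h2 : (m (a * (2 * K + 1) + t) : ℤ) ∣ x - c (a * (2 * K + 1) + t) * y := by
      have e : x - c (a * (2 * K + 1) + t) * y =
          ((x1 - X) % modProd m n - (x1 - X)) +
          (x1 - (c (a * (2 * K + 1) + t) * ((t : ℤ) - K) - a)) := by
        rw [ha, ht]; ring
      rw [e]
      exact dvd_add (dvd_trans hmQ hQd) h1
    have h3 : x ^ 2 + y ^ 2 = (x - c (a * (2 * K + 1) + t) * y) *
        (x + c (a * (2 * K + 1) + t) * y) + y ^ 2 * (c (a * (2 * K + 1) + t) ^ 2 + 1) := by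
      ring
    rw [h3]
    exact dvd_add (Dvd.dvd.mul_right h2 _) (Dvd.dvd.mul_left (hc _) _)

end Vale.Agent.Lib.P015
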