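import Mathlib
import Vale.Agent.Lib.P015.Gauss
import Vale.Agent.Lib.P015.Wall

/-!
# No infinite walk on Gaussian primes inside a thin region around the real axis
-/

namespace Vale.Agent.Lib.P015

/-- A step of norm at most `D ^ 2` changes the real part by at most `D`. -/
theorem re_step_le (D : ℕ) (a b : GaussianInt) (h : (b - a).norm ≤ (D : ℤ) ^ 2) :
    |b.re - a.re| ≤ (D : ℤ) := by
  rw [Zsqrtd.norm_def, Zsqrtd.re_sub, Zsqrtd.im_sub] at h
  have hD : (0 : ℤ) ≤ D := by positivity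
  rw [abs_le]
  constructor <;> nlinarith [mul_self_nonneg (b.im - a.im)]

/-- The thin-region theorem for walks with positive real parts. -/
theorem no_walk_thin_pos (m : ℕ → ℕ) (c : ℕ → ℤ) (hm : ∀ i, 1 < m i)
    (hc : ∀ i, (m i : ℤ) ∣ c i ^ 2 + 1)
    (hcop : ∀ i j, i ≠ j → Nat.Coprime (m i) (m j)) (D : ℕ)
    (z : ℕ → GaussianInt) (hz : ∀ n, Prime (z n)) (hinj : Function.Injective z)
    (hstep : ∀ n, (z (n + 1) - z n).norm ≤ (D : ℤ) ^ 2)
    (hreg : ∀ n, modProd m ((D + 1) * (2 * (z n).im.natAbs + 1)) ≤ (z n).re) : False := by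
  have hpos : ∀ n, 0 < (z n).re := fun n => lt_of_lt_of_le (modProd_pos m hm _) (hreg n)
  -- the real parts are unbounded
  have hunb : ∀ B : ℤ, ∃ n, B < (z n).re := by
    intro B
    by_contra hcon
    push Not at hcon
    have hsub : Set.range z ⊆ {w : GaussianInt | w.norm ≤ 2 * B ^ 2} := by
      rintro _ ⟨n, rfl⟩
      have h1 := hreg n
      have h2 := two_pow_le_modProd m hm ((D + 1) * (2 * (z n).im.natAbs + 1))
      have h3 : (z n).im.natAbs < 2 ^ ((D + 1) * (2 * (z n).im.natAbs + 1)) := by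
        refine lt_of_lt_of_le (Nat.lt_two_pow_self) (Nat.pow_le_pow_right (by norm_num) ?_)
        nlinarith [Nat.zero_le D, Nat.zero_le (z n).im.natAbs]
      have h4 : ((z n).im.natAbs : ℤ) < 2 ^ ((D + 1) * (2 * (z n).im.natAbs + 1)) := by
        exact_mod_cast h3
      have h5 : ((z n).im.natAbs : ℤ) ≤ B := by
        have := hcon n
        linarith
      have h6 : |(z n).im| ≤ B := by rwa [Int.abs_eq_natAbs]
      rw [abs_le] at h6
      have h7 := hpos n
      have h8 := hcon n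
      show (z n).norm ≤ 2 * B ^ 2
      rw [Zsqrtd.norm_def]
      nlinarith
    exact (Set.infinite_range_of_injective hinj) ((finite_norm_le (2 * B ^ 2)).subset hsub)
  -- the height and the position of the wall
  obtain ⟨K, hK⟩ : ∃ K : ℕ, K = (z 0).re.toNat := ⟨_, rfl⟩
  have hK0 : (z 0).re ≤ K := by
    rw [hK]; exact Int.self_le_toNat _
  have hQK : (2 : ℤ) ^ ((D + 1) * (2 * K + 1)) ≤ modProd m ((D + 1) * (2 * K + 1)) :=
    two_pow_le_modProd m hm _
  have hKQ : (K : ℤ) < modProd m ((D + 1) * (2 * K + 1)) := by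
    have h3 : K < 2 ^ ((D + 1) * (2 * K + 1)) := by
      refine lt_of_lt_of_le (Nat.lt_two_pow_self) (Nat.pow_le_pow_right (by norm_num) ?_)
      nlinarith [Nat.zero_le D, Nat.zero_le K]
    have h4 : (K : ℤ) < 2 ^ ((D + 1) * (2 * K + 1)) := by exact_mod_cast h3
    linarith
  have hDQ : (D : ℤ) + 1 < modProd m ((D + 1) * (2 * K + 1)) := by
    have h3 : D + 1 < 2 ^ ((D + 1) * (2 * K + 1)) := by
      refine lt_of_lt_of_le (Nat.lt_two_pow_self) (Nat.pow_le_pow_right (by norm_num) ?_)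
      nlinarith [Nat.zero_le D, Nat.zero_le K]
    have h4 : ((D : ℤ) + 1) < 2 ^ ((D + 1) * (2 * K + 1)) := by exact_mod_cast h3
    linarith
  obtain ⟨x0, hx0l, hx0u, hwall⟩ :=
    exists_wall m c hm hc hcop D K (modProd m ((D + 1) * (2 * K + 1)) + 1)
  -- the first time the walk reaches the wall
  have hex : ∃ n, x0 ≤ (z n).re := by
    obtain ⟨n, hn⟩ := hunb x0
    exact ⟨n, le_of_lt hn⟩
  obtain ⟨n1, hn1, hmin⟩ : ∃ n1, x0 ≤ (z n1).re ∧ ∀ k, k < n1 → ¬ x0 ≤ (z k).re :=
    ⟨Nat.find hex, Nat.find_spec hex, fun k hk => Nat.find_min hex hk⟩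
  have hn1pos : n1 ≠ 0 := by
    rintro rfl
    linarith
  obtain ⟨n0, rfl⟩ : ∃ n0, n1 = n0 + 1 := ⟨n1 - 1, by omega⟩
  have hbefore : (z n0).re < x0 := by
    have := hmin n0 (by omega)
    linarith
  have hstepre := re_step_le D (z n0) (z (n0 + 1)) (hstep n0)
  rw [abs_le] at hstepre
  have hin : (z (n0 + 1)).re ≤ x0 + D := by linarith
  -- the point is low enough to lie in the wall
  have hlow : (z (n0 + 1)).im.natAbs ≤ K := by
    by_contra hhigh
    push Not at hhigh
    have h1 := hreg (n0 + 1)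
    have h2 : (D + 1) * (2 * K + 1) + 2 ≤ (D + 1) * (2 * (z (n0 + 1)).im.natAbs + 1) := by
      have : 2 * K + 3 ≤ 2 * (z (n0 + 1)).im.natAbs + 1 := by omega
      calc (D + 1) * (2 * K + 1) + 2 ≤ (D + 1) * (2 * K + 1) + (D + 1) * 2 := by nlinarith
        _ = (D + 1) * (2 * K + 3) := by ring
        _ ≤ (D + 1) * (2 * (z (n0 + 1)).im.natAbs + 1) := Nat.mul_le_mul_left _ this
    have h3 := modProd_mono m hm h2
    have h4 := modProd_add_ge m hm ((D + 1) * (2 * K + 1)) 2
    linarith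
  have hy : |(z (n0 + 1)).im| ≤ (K : ℤ) := by
    rw [Int.abs_eq_natAbs]
    exact_mod_cast hlow
  obtain ⟨i, hi, hdvd⟩ := hwall (z (n0 + 1)).re (z (n0 + 1)).im hn1 hin hy
  have hnorm : (z (n0 + 1)).norm = (z (n0 + 1)).re ^ 2 + (z (n0 + 1)).im ^ 2 := by
    rw [Zsqrtd.norm_def]; ring
  have hmi : (m i : ℤ) ≤ modProd m ((D + 1) * (2 * K + 1)) := le_modProd m hm hi
  have hmi0 : (0 : ℤ) ≤ (m i : ℤ) := by positivity
  refine not_prime_of_dvd_norm (m i) (hm i) (z (n0 + 1)) (by rw [hnorm]; exact hdvd) ?_ (hz _)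
  rw [hnorm]
  nlinarith [sq_nonneg (z (n0 + 1)).im]

/-- The thin-region theorem: a walk on pairwise distinct Gaussian primes with steps of length
at most `D` cannot stay in the region `modProd m ((D + 1) * (2 * |Im z| + 1)) ≤ |Re z|`. -/
theorem no_walk_thin (m : ℕ → ℕ) (c : ℕ → ℤ) (hm : ∀ i, 1 < m i)
    (hc : ∀ i, (m i : ℤ) ∣ c i ^ 2 + 1)
    (hcop : ∀ i j, i ≠ j → Nat.Coprime (m i) (m j)) (D : ℕ)
    (z : ℕ → GaussianInt) (hz : ∀ n, Prime (z n)) (hinj : Function.Injective z)
    (hstep : ∀ n, (z (n + 1) - z n).norm ≤ (D : ℤ) ^ 2) :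
    ¬ ∀ n, modProd m ((D + 1) * (2 * (z n).im.natAbs + 1)) ≤ |(z n).re| := by
  intro hreg
  have hbig : ∀ n, (D : ℤ) < |(z n).re| := by
    intro n
    have h1 := hreg n
    have h2 := two_pow_le_modProd m hm ((D + 1) * (2 * (z n).im.natAbs + 1))
    have h3 : D < 2 ^ ((D + 1) * (2 * (z n).im.natAbs + 1)) := by
      refine lt_of_lt_of_le (Nat.lt_two_pow_self) (Nat.pow_le_pow_right (by norm_num) ?_)
      nlinarith [Nat.zero_le D, Nat.zero_le (z n).im.natAbs]
    have h4 : (D : ℤ) < 2 ^ ((D + 1) * (2 * (z n).im.natAbs + 1)) := by exact_mod_cast h3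
    linarith
  have hD : (0 : ℤ) ≤ D := by positivity
  have hstepre : ∀ n, |(z (n + 1)).re - (z n).re| ≤ (D : ℤ) :=
    fun n => re_step_le D (z n) (z (n + 1)) (hstep n)
  rcases lt_or_ge 0 (z 0).re with h0 | h0
  · have hpos : ∀ n, 0 < (z n).re := by
      intro n
      induction n with
      | zero => exact h0
      | succ n ih =>
        have h1 := hbig n
        rw [abs_of_pos ih] at h1
        have h2 := hstepre n
        rw [abs_le] at h2
        linarith
    refine no_walk_thin_pos m c hm hc hcop D z hz hinj hstep ?_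
    intro n
    have := hreg n
    rwa [abs_of_pos (hpos n)] at this
  · have hneg : ∀ n, (z n).re < 0 := by
      intro n
      induction n with
      | zero =>
        have h1 := hbig 0
        rcases lt_or_eq_of_le h0 with h | h
        · exact h
        · rw [h, abs_zero] at h1; linarith
      | succ n ih =>
        have h1 := hbig n
        rw [abs_of_neg ih] at h1
        have h2 := hstepre n
        rw [abs_le] at h2
        linarith
    refine no_walk_thin_pos m c hm hc hcop D (fun n => -z n) (fun n => (hz n).neg)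
      (fun a b hab => hinj (neg_injective hab)) ?_ ?_
    · intro n
      have e : -z (n + 1) - -z n = -(z (n + 1) - z n) := by ring
      rw [e, Zsqrtd.norm_neg]
      exact hstep n
    · intro n
      have := hreg n
      rw [abs_of_neg (hneg n)] at this
      simpa using this

end Vale.Agent.Lib.P015
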