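import Mathlib
import Vale.Agent.Lib.P015.Thin

/-!
# The thin-region theorem with the primes congruent to `1` modulo `4` as moduli
-/

namespace Vale.Agent.Lib.P015

/-- The `i`-th prime congruent to `1` modulo `4` (starting with `prime41 0 = 5`). -/
noncomputable def prime41 (i : ℕ) : ℕ := Nat.nth (fun p => p.Prime ∧ p % 4 = 1) i

theorem infinite41 : (Set.ofPred fun p : ℕ => p.Prime ∧ p % 4 = 1).Infinite := by
  have h := Nat.infinite_setOfPred_prime_modEq_one (k := 4) (by norm_num)
  refine h.mono ?_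
  rintro p ⟨hp, hmod⟩
  refine ⟨hp, ?_⟩
  have h1 : p % 4 = 1 % 4 := hmod
  omega

theorem prime41_spec (i : ℕ) : (prime41 i).Prime ∧ prime41 i % 4 = 1 :=
  Nat.nth_mem_of_infinite infinite41 i

theorem prime41_injective : Function.Injective prime41 := Nat.nth_injective infinite41

theorem exists_sq_add_one (p : ℕ) (hp : p.Prime) (h4 : p % 4 = 1) :
    ∃ c : ℤ, (p : ℤ) ∣ c ^ 2 + 1 := by
  have : Fact p.Prime := Fact.mk hp
  obtain ⟨y, hy⟩ := (ZMod.exists_sq_eq_neg_one_iff (p := p)).2 (by omega)
  refine ⟨(y.val : ℤ), ?_⟩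
  rw [← ZMod.intCast_zmod_eq_zero_iff_dvd]
  push_cast
  rw [ZMod.natCast_zmod_val, pow_two, ← hy]
  ring

/-- A square root of `-1` modulo `prime41 i`. -/
noncomputable def sqrt41 (i : ℕ) : ℤ :=
  Classical.choose (exists_sq_add_one (prime41 i) (prime41_spec i).1 (prime41_spec i).2)

theorem sqrt41_spec (i : ℕ) : (prime41 i : ℤ) ∣ sqrt41 i ^ 2 + 1 :=
  Classical.choose_spec (exists_sq_add_one (prime41 i) (prime41_spec i).1 (prime41_spec i).2)

/-- A walk on pairwise distinct Gaussian primes with steps of length at most `D` cannot stay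
in the region `P ((D + 1) * (2 * |Im z| + 1)) ≤ |Re z|`, where `P k` is the product of the `k`
smallest primes congruent to `1` modulo `4`. -/
theorem no_walk_primorial (D : ℕ) (z : ℕ → GaussianInt) (hz : ∀ n, Prime (z n))
    (hinj : Function.Injective z) (hstep : ∀ n, (z (n + 1) - z n).norm ≤ (D : ℤ) ^ 2) :
    ¬ ∀ n, ((∏ i ∈ Finset.range ((D + 1) * (2 * (z n).im.natAbs + 1)), prime41 i : ℕ) : ℤ)
      ≤ |(z n).re| := by
  intro h
  refine no_walk_thin prime41 sqrt41 (fun i => (prime41_spec i).1.one_lt) sqrt41_spec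
    (fun i j hij => (Nat.coprime_primes (prime41_spec i).1 (prime41_spec j).1).2
      (fun e => hij (prime41_injective e))) D z hz hinj hstep ?_
  intro n
  have := h n
  unfold modProd
  push_cast at this
  exact this

end Vale.Agent.Lib.P015
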