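import Mathlib
import Vale.Agent.Lib.P015.Wall
import Vale.Agent.Lib.P015.Thin
import Vale.Agent.Lib.P015.Primes41

/-!
# Walks on Gaussian primes near a line of irrational slope

Boxes of composite Gaussian integers are produced by the Chinese remainder theorem in both
coordinates; their centres form a full lattice, and a line of irrational slope passes as close
as we like to infinitely many of them (Kronecker).
-/

namespace Vale.Agent.Lib.P015

/-- Boxes all of whose points have both coordinates divisible by one of the moduli; the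
centres `(u0 + Q * s, v0 + Q * t)` form a lattice. -/
theorem exists_box (m : ℕ → ℕ) (_hm : ∀ i, 1 < m i)
    (hcop : ∀ i j, i ≠ j → Nat.Coprime (m i) (m j)) (R : ℕ) :
    ∃ u0 v0 : ℤ, ∀ s t a b : ℤ, |a| ≤ R → |b| ≤ R →
      ∃ i, i < (2 * R + 1) * (2 * R + 1) ∧
        (m i : ℤ) ∣ u0 + modProd m ((2 * R + 1) * (2 * R + 1)) * s + a ∧
        (m i : ℤ) ∣ v0 + modProd m ((2 * R + 1) * (2 * R + 1)) * t + b := by
  obtain ⟨n, hn⟩ : ∃ n, n = (2 * R + 1) * (2 * R + 1) := ⟨_, rfl⟩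
  rw [← hn]
  have hI : Pairwise (Function.onFun IsCoprime fun i : Fin n => Ideal.span {(m i : ℤ)}) := by
    intro i j hij
    rw [Function.onFun, Ideal.isCoprime_span_singleton_iff]
    exact Nat.isCoprime_iff_coprime.2 (hcop i j (fun h => hij (Fin.ext h)))
  obtain ⟨u0, hu0⟩ := Ideal.exists_forall_sub_mem_ideal hI
    (fun i : Fin n => (R : ℤ) - (((i : ℕ) / (2 * R + 1) : ℕ) : ℤ))
  obtain ⟨v0, hv0⟩ := Ideal.exists_forall_sub_mem_ideal hI
    (fun i : Fin n => (R : ℤ) - (((i : ℕ) % (2 * R + 1) : ℕ) : ℤ))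
  refine ⟨u0, v0, ?_⟩
  intro s t a b ha hb
  rw [abs_le] at ha hb
  obtain ⟨a', ha'⟩ : ∃ a' : ℕ, a = (a' : ℤ) - R := ⟨(a + R).toNat, by omega⟩
  obtain ⟨b', hb'⟩ : ∃ b' : ℕ, b = (b' : ℤ) - R := ⟨(b + R).toNat, by omega⟩
  have ha2 : a' ≤ 2 * R := by omega
  have hb2 : b' ≤ 2 * R := by omega
  have hi : a' * (2 * R + 1) + b' < n := by
    rw [hn]
    have : a' * (2 * R + 1) + b' < (a' + 1) * (2 * R + 1) := by nlinarith
    exact lt_of_lt_of_le this (Nat.mul_le_mul_right _ (by omega))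
  have e1 : (a' * (2 * R + 1) + b') % (2 * R + 1) = b' := by
    rw [Nat.mul_comm, Nat.mul_add_mod]
    exact Nat.mod_eq_of_lt (by omega)
  have e2 : (a' * (2 * R + 1) + b') / (2 * R + 1) = a' := by
    rw [Nat.mul_comm, Nat.mul_add_div (by omega), Nat.div_eq_of_lt (by omega)]
    rfl
  have hmQ : (m (a' * (2 * R + 1) + b') : ℤ) ∣ modProd m n :=
    Finset.dvd_prod_of_mem _ (Finset.mem_range.2 hi)
  refine ⟨a' * (2 * R + 1) + b', hi, ?_, ?_⟩
  · have h1 := hu0 ⟨a' * (2 * R + 1) + b', hi⟩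
    rw [Ideal.mem_span_singleton] at h1
    simp only [e2] at h1
    have e : u0 + modProd m n * s + a = (u0 - ((R : ℤ) - a')) + modProd m n * s := by
      rw [ha']; ring
    rw [e]
    exact dvd_add h1 (Dvd.dvd.mul_right hmQ _)
  · have h1 := hv0 ⟨a' * (2 * R + 1) + b', hi⟩
    rw [Ideal.mem_span_singleton] at h1
    simp only [e1] at h1
    have e : v0 + modProd m n * t + b = (v0 - ((R : ℤ) - b')) + modProd m n * t := by
      rw [hb']; ring
    rw [e]
    exact dvd_add h1 (Dvd.dvd.mul_right hmQ _)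

/-- Kronecker's theorem in the form needed here: for irrational `α`, the numbers `i * α + j`
with `i` beyond any bound approximate every real number. -/
theorem kronecker (α : ℝ) (hα : Irrational α) (γ ε : ℝ) (hε : 0 < ε) (B : ℤ) :
    ∃ i j : ℤ, B < i ∧ |(i : ℝ) * α + j - γ| < ε := by
  have hdense : Dense (AddSubgroup.closure {α, (1 : ℝ)} : Set ℝ) := by
    rw [dense_addSubgroupClosure_pair_iff]
    simpa using hα
  obtain ⟨g0, hg0mem, hg0l, hg0u⟩ :=
    hdense.exists_between (show γ - ε / 2 < γ + ε / 2 by linarith)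
  rw [SetLike.mem_coe, AddSubgroup.mem_closure_pair] at hg0mem
  obtain ⟨i0, j0, hij0⟩ := hg0mem
  obtain ⟨k, hk⟩ : ∃ k : ℕ, (k : ℤ) = |B| + |i0| + 1 :=
    ⟨(|B| + |i0| + 1).toNat, Int.toNat_of_nonneg (by positivity)⟩
  have hk1 : (1 : ℤ) ≤ (k : ℤ) := by
    rw [hk]; linarith [abs_nonneg B, abs_nonneg i0]
  have hkpos : (0 : ℝ) < (k : ℝ) := by
    have : (1 : ℝ) ≤ (k : ℝ) := by exact_mod_cast hk1
    linarith
  obtain ⟨h, hhmem, hhl, hhu⟩ :=
    hdense.exists_between (show (0 : ℝ) < min (ε / (2 * k)) 1 by positivity)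
  rw [SetLike.mem_coe, AddSubgroup.mem_closure_pair] at hhmem
  obtain ⟨i1, j1, hij1⟩ := hhmem
  simp only [zsmul_eq_mul, mul_one] at hij0 hij1
  have hh1 : h < 1 := lt_of_lt_of_le hhu (min_le_right _ _)
  have hh2 : h < ε / (2 * k) := lt_of_lt_of_le hhu (min_le_left _ _)
  have hkh : (k : ℝ) * h < ε / 2 := by
    have := mul_lt_mul_of_pos_left hh2 hkpos
    have e : (k : ℝ) * (ε / (2 * k)) = ε / 2 := by field_simp
    linarith
  have hkh0 : 0 < (k : ℝ) * h := mul_pos hkpos hhl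
  have hi1 : i1 ≠ 0 := by
    rintro rfl
    simp only [Int.cast_zero, zero_mul, zero_add] at hij1
    rw [← hij1] at hhl hh1
    have h1 : (0 : ℤ) < j1 := by exact_mod_cast hhl
    have h2 : j1 < (1 : ℤ) := by exact_mod_cast hh1
    omega
  rcases lt_or_gt_of_ne hi1 with hneg | hpos
  · refine ⟨i0 + k * (-i1), j0 + k * (-j1), ?_, ?_⟩
    · have h1 : (k : ℤ) ≤ k * (-i1) := by nlinarith
      linarith [le_abs_self B, neg_abs_le i0]
    · have e : ((i0 + k * (-i1) : ℤ) : ℝ) * α + ((j0 + k * (-j1) : ℤ) : ℝ) - γ =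
          (g0 - γ) - (k : ℝ) * h := by
        rw [← hij0, ← hij1]; push_cast; ring
      rw [e, abs_lt]
      constructor <;> linarith
  · refine ⟨i0 + k * i1, j0 + k * j1, ?_, ?_⟩
    · have h1 : (k : ℤ) ≤ k * i1 := by nlinarith
      linarith [le_abs_self B, neg_abs_le i0]
    · have e : ((i0 + k * i1 : ℤ) : ℝ) * α + ((j0 + k * j1 : ℤ) : ℝ) - γ =
          (g0 - γ) + (k : ℝ) * h := by
        rw [← hij0, ← hij1]; push_cast; ring
      rw [e, abs_lt]
      constructor <;> linarith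

/-- No walk whose real parts are unbounded above stays near a line of irrational slope. -/
theorem no_walk_irr_up (α β K1 : ℝ) (hα : Irrational α) (D : ℕ) (z : ℕ → GaussianInt)
    (hz : ∀ n, Prime (z n))
    (hstep : ∀ n, (z (n + 1) - z n).norm ≤ (D : ℤ) ^ 2)
    (hup : ∀ B : ℤ, ∃ n, B < (z n).re)
    (hreg : ∀ n, |((z n).im : ℝ) - α * (z n).re - β| ≤ K1) : False := by
  obtain ⟨R, hR1, hR2⟩ : ∃ R : ℕ, K1 + |α| * D + 1 ≤ R ∧ D ≤ R := by
    refine ⟨⌈K1 + |α| * D + 1⌉₊ + D, ?_, by omega⟩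
    push_cast
    have h1 := Nat.le_ceil (K1 + |α| * D + 1)
    have h2 : (0 : ℝ) ≤ D := by positivity
    linarith
  have hm : ∀ i, 1 < prime41 i := fun i => (prime41_spec i).1.one_lt
  have hcop : ∀ i j, i ≠ j → Nat.Coprime (prime41 i) (prime41 j) := fun i j hij =>
    (Nat.coprime_primes (prime41_spec i).1 (prime41_spec j).1).2
      (fun e => hij (prime41_injective e))
  obtain ⟨u0, v0, hbox⟩ := exists_box prime41 hm hcop R
  obtain ⟨Q, hQ⟩ : ∃ Q : ℤ, Q = modProd prime41 ((2 * R + 1) * (2 * R + 1)) := ⟨_, rfl⟩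
  rw [← hQ] at hbox
  have hQpos : 0 < Q := by rw [hQ]; exact modProd_pos _ hm _
  have hQR : (0 : ℝ) < (Q : ℝ) := by exact_mod_cast hQpos
  obtain ⟨s, t, hs, hst⟩ := kronecker (-α) hα.neg ((α * u0 + β - v0) / Q) (1 / Q)
    (by positivity) (|u0| + |(z 0).re| + Q + 1)
  obtain ⟨c1, hc1⟩ : ∃ c1 : ℤ, c1 = u0 + Q * s := ⟨_, rfl⟩
  obtain ⟨c2, hc2⟩ : ∃ c2 : ℤ, c2 = v0 + Q * t := ⟨_, rfl⟩
  have hsQ : s ≤ Q * s := by
    have : 0 < s := by linarith [abs_nonneg u0, abs_nonneg (z 0).re]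
    nlinarith
  have hc1a : (z 0).re < c1 := by
    rw [hc1]; linarith [le_abs_self (z 0).re, neg_abs_le u0]
  have hc1b : Q < c1 := by
    rw [hc1]; linarith [abs_nonneg (z 0).re, neg_abs_le u0]
  have hclose : |(c2 : ℝ) - α * c1 - β| ≤ 1 := by
    have h1 : |(Q : ℝ) * ((s : ℝ) * (-α) + t - (α * u0 + β - v0) / Q)| < 1 := by
      rw [abs_mul, abs_of_pos hQR]
      have h2 := mul_lt_mul_of_pos_left hst hQR
      have e : (Q : ℝ) * (1 / Q) = 1 := by field_simp
      linarith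
    have e : (c2 : ℝ) - α * c1 - β =
        (Q : ℝ) * ((s : ℝ) * (-α) + t - (α * u0 + β - v0) / Q) := by
      rw [hc1, hc2]; push_cast; field_simp; ring
    rw [e]
    exact le_of_lt h1
  -- the first time the walk reaches the abscissa of the centre
  have hex : ∃ n, c1 ≤ (z n).re := by
    obtain ⟨n, hn⟩ := hup c1
    exact ⟨n, le_of_lt hn⟩
  obtain ⟨n1, hn1, hmin⟩ : ∃ n1, c1 ≤ (z n1).re ∧ ∀ k, k < n1 → ¬ c1 ≤ (z k).re :=
    ⟨Nat.find hex, Nat.find_spec hex, fun k hk => Nat.find_min hex hk⟩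
  have hn1pos : n1 ≠ 0 := by
    rintro rfl
    linarith
  obtain ⟨n0, rfl⟩ : ∃ n0, n1 = n0 + 1 := ⟨n1 - 1, by omega⟩
  have hbefore : (z n0).re < c1 := by
    have := hmin n0 (by omega)
    linarith
  have hstepre := re_step_le D (z n0) (z (n0 + 1)) (hstep n0)
  rw [abs_le] at hstepre
  have hDR : (D : ℤ) ≤ (R : ℤ) := by exact_mod_cast hR2
  have ha : |(z (n0 + 1)).re - c1| ≤ (R : ℤ) := by
    rw [abs_le]
    constructor <;> linarith
  have hb : |(z (n0 + 1)).im - c2| ≤ (R : ℤ) := by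
    have h1 := hreg (n0 + 1)
    have h2 : |(((z (n0 + 1)).im - c2 : ℤ) : ℝ)| ≤ (R : ℝ) := by
      push_cast
      have e : ((z (n0 + 1)).im : ℝ) - c2 =
          (((z (n0 + 1)).im : ℝ) - α * (z (n0 + 1)).re - β) +
          α * (((z (n0 + 1)).re : ℝ) - c1) - ((c2 : ℝ) - α * c1 - β) := by ring
      have h3 : |α * (((z (n0 + 1)).re : ℝ) - c1)| ≤ |α| * D := by
        rw [abs_mul]
        refine mul_le_mul_of_nonneg_left ?_ (abs_nonneg _)
        have h4 : (c1 : ℝ) ≤ (z (n0 + 1)).re := by exact_mod_cast hn1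
        have h5 : ((z (n0 + 1)).re : ℝ) ≤ (z n0).re + D := by
          have : (z (n0 + 1)).re ≤ (z n0).re + D := by linarith
          exact_mod_cast this
        have h6 : ((z n0).re : ℝ) < c1 := by exact_mod_cast hbefore
        have h7 : (0 : ℝ) ≤ D := by positivity
        rw [abs_le]
        constructor <;> linarith
      rw [e]
      have h8 := abs_le.1 h1
      have h9 := abs_le.1 h3
      have h10 := abs_le.1 hclose
      rw [abs_le]
      constructor <;> linarith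
    have h3 : ((|(z (n0 + 1)).im - c2| : ℤ) : ℝ) ≤ ((R : ℤ) : ℝ) := by
      rw [Int.cast_abs]; exact_mod_cast h2
    exact_mod_cast h3
  obtain ⟨i, hi, hd1, hd2⟩ := hbox s t ((z (n0 + 1)).re - c1) ((z (n0 + 1)).im - c2) ha hb
  have hre : (prime41 i : ℤ) ∣ (z (n0 + 1)).re := by
    have e : u0 + Q * s + ((z (n0 + 1)).re - c1) = (z (n0 + 1)).re := by rw [hc1]; ring
    rwa [e] at hd1
  have him : (prime41 i : ℤ) ∣ (z (n0 + 1)).im := by
    have e : v0 + Q * t + ((z (n0 + 1)).im - c2) = (z (n0 + 1)).im := by rw [hc2]; ring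
    rwa [e] at hd2
  have hnorm : (z (n0 + 1)).norm =
      (z (n0 + 1)).re * (z (n0 + 1)).re + (z (n0 + 1)).im * (z (n0 + 1)).im := by
    rw [Zsqrtd.norm_def]; ring
  have hmi : (prime41 i : ℤ) ≤ Q := by rw [hQ]; exact le_modProd _ hm hi
  have hmi0 : (0 : ℤ) ≤ (prime41 i : ℤ) := by positivity
  refine not_prime_of_dvd_norm (prime41 i) (hm i) (z (n0 + 1)) ?_ ?_ (hz _)
  · rw [hnorm]
    exact dvd_add (Dvd.dvd.mul_right hre _) (Dvd.dvd.mul_right him _)
  · rw [hnorm]
    nlinarith [mul_self_nonneg (z (n0 + 1)).im]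

/-- No walk on pairwise distinct Gaussian primes with bounded steps stays in a strip of bounded
width around a line `y = α x + β` of irrational slope. -/
theorem no_walk_irrational (α β K1 : ℝ) (hα : Irrational α) (D : ℕ) (z : ℕ → GaussianInt)
    (hz : ∀ n, Prime (z n)) (hinj : Function.Injective z)
    (hstep : ∀ n, (z (n + 1) - z n).norm ≤ (D : ℤ) ^ 2) :
    ¬ ∀ n, |((z n).im : ℝ) - α * (z n).re - β| ≤ K1 := by
  intro hreg
  by_cases hup : ∀ B : ℤ, ∃ n, B < (z n).re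
  · exact no_walk_irr_up α β K1 hα D z hz hstep hup hreg
  by_cases hdown : ∀ B : ℤ, ∃ n, (z n).re < -B
  · refine no_walk_irr_up α (-β) K1 hα D (fun n => -z n) (fun n => (hz n).neg) ?_ ?_ ?_
    · intro n
      have e : -z (n + 1) - -z n = -(z (n + 1) - z n) := by ring
      rw [e, Zsqrtd.norm_neg]
      exact hstep n
    · intro B
      obtain ⟨n, hn⟩ := hdown B
      refine ⟨n, ?_⟩
      simp only [Zsqrtd.re_neg]
      linarith
    · intro n
      have h1 := hreg n
      simp only [Zsqrtd.re_neg, Zsqrtd.im_neg]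
      push_cast
      have e : -((z n).im : ℝ) - α * -((z n).re : ℝ) - -β =
          -(((z n).im : ℝ) - α * (z n).re - β) := by ring
      rw [e, abs_neg]
      exact h1
  · push Not at hup hdown
    obtain ⟨B1, hB1⟩ := hup
    obtain ⟨B2, hB2⟩ := hdown
    obtain ⟨M, hM⟩ : ∃ M : ℕ, K1 + |α| * (|B1| + |B2| : ℤ) + |β| ≤ M := ⟨⌈_⌉₊, Nat.le_ceil _⟩
    have hsub : Set.range z ⊆
        {w : GaussianInt | w.norm ≤ (|B1| + |B2|) ^ 2 + (M : ℤ) ^ 2} := by
      rintro _ ⟨n, rfl⟩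
      have h1 := hreg n
      have hx : |(z n).re| ≤ |B1| + |B2| := by
        rw [abs_le]
        constructor
        · linarith [hB2 n, le_abs_self B2, abs_nonneg B1]
        · linarith [hB1 n, le_abs_self B1, abs_nonneg B2]
      have hxr : |((z n).re : ℝ)| ≤ ((|B1| + |B2| : ℤ) : ℝ) := by
        rw [← Int.cast_abs]; exact_mod_cast hx
      have hy : |((z n).im : ℝ)| ≤ (M : ℝ) := by
        have e : ((z n).im : ℝ) = (((z n).im : ℝ) - α * (z n).re - β) + α * (z n).re + β := by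
          ring
        have h2 : |α * ((z n).re : ℝ)| ≤ |α| * ((|B1| + |B2| : ℤ) : ℝ) := by
          rw [abs_mul]
          exact mul_le_mul_of_nonneg_left hxr (abs_nonneg _)
        have h3 := abs_le.1 h1
        have h4 := abs_le.1 h2
        have h5 := abs_le.1 (le_refl |β|)
        rw [e, abs_le]
        constructor <;> linarith
      have hy' : |(z n).im| ≤ (M : ℤ) := by
        have h3 : ((|(z n).im| : ℤ) : ℝ) ≤ ((M : ℤ) : ℝ) := by
          rw [Int.cast_abs]; exact_mod_cast hy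
        exact_mod_cast h3
      show (z n).norm ≤ (|B1| + |B2|) ^ 2 + (M : ℤ) ^ 2
      rw [Zsqrtd.norm_def]
      have h6 : (z n).re * (z n).re ≤ (|B1| + |B2|) ^ 2 := by
        have := sq_le_sq' (by linarith [abs_le.1 hx]) (abs_le.1 hx).2
        nlinarith
      have h7 : (z n).im * (z n).im ≤ (M : ℤ) ^ 2 := by
        have := sq_le_sq' (by linarith [abs_le.1 hy']) (abs_le.1 hy').2
        nlinarith
      linarith
    exact (Set.infinite_range_of_injective hinj) ((finite_norm_le _).subset hsub)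

end Vale.Agent.Lib.P015
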