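import Mathlib
import Vale.Agent.Lib.P015.Wall
import Vale.Agent.Lib.P015.Thin

/-!
# The wall argument for abstract sequences of lattice points
-/

namespace Vale.Agent.Lib.P015

/-- The wall argument for a sequence of lattice points with positive first coordinates. -/
theorem no_walk_abs_pos (m : ℕ → ℕ) (c : ℕ → ℤ) (hm : ∀ i, 1 < m i)
    (hc : ∀ i, (m i : ℤ) ∣ c i ^ 2 + 1)
    (hcop : ∀ i j, i ≠ j → Nat.Coprime (m i) (m j)) (D W : ℕ) (hW : 1 ≤ W)
    (x y : ℕ → ℤ) (hinj : Function.Injective (fun n => (x n, y n)))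
    (hstep : ∀ n, |x (n + 1) - x n| ≤ (D : ℤ))
    (hnw : ∀ n i, (m i : ℤ) ∣ x n ^ 2 + y n ^ 2 → x n ^ 2 + y n ^ 2 ≤ (W : ℤ) * (m i : ℤ) ^ 2)
    (hreg : ∀ n, (W : ℤ) * modProd m ((D + 1) * (2 * (y n).natAbs + 1)) ≤ x n) : False := by
  have hW' : (1 : ℤ) ≤ (W : ℤ) := by exact_mod_cast hW
  have hQpos : ∀ k, 0 < modProd m k := modProd_pos m hm
  have hreg' : ∀ n, modProd m ((D + 1) * (2 * (y n).natAbs + 1)) ≤ x n := by
    intro n
    have h1 := hreg n
    have h2 := hQpos ((D + 1) * (2 * (y n).natAbs + 1))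
    nlinarith
  have hpos : ∀ n, 0 < x n := fun n => lt_of_lt_of_le (hQpos _) (hreg' n)
  -- the first coordinates are unbounded
  have hunb : ∀ B : ℤ, ∃ n, B < x n := by
    intro B
    by_contra hcon
    push Not at hcon
    have hsub : Set.range (fun n => (x n, y n)) ⊆ Set.Icc (-B) B ×ˢ Set.Icc (-B) B := by
      rintro _ ⟨n, rfl⟩
      have h1 := hreg' n
      have h2 := two_pow_le_modProd m hm ((D + 1) * (2 * (y n).natAbs + 1))
      have h3 : (y n).natAbs < 2 ^ ((D + 1) * (2 * (y n).natAbs + 1)) := by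
        refine lt_of_lt_of_le (Nat.lt_two_pow_self) (Nat.pow_le_pow_right (by norm_num) ?_)
        nlinarith [Nat.zero_le D, Nat.zero_le (y n).natAbs]
      have h4 : ((y n).natAbs : ℤ) < 2 ^ ((D + 1) * (2 * (y n).natAbs + 1)) := by
        exact_mod_cast h3
      have h5 : ((y n).natAbs : ℤ) ≤ B := by
        have := hcon n
        linarith
      have h6 : |y n| ≤ B := by rwa [Int.abs_eq_natAbs]
      rw [abs_le] at h6
      have h7 := hpos n
      have h8 := hcon n
      refine ⟨⟨by linarith, h8⟩, ⟨h6.1, h6.2⟩⟩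
    exact (Set.infinite_range_of_injective hinj)
      (((Set.finite_Icc _ _).prod (Set.finite_Icc _ _)).subset hsub)
  -- the height and the position of the wall
  obtain ⟨K, hK⟩ : ∃ K : ℕ, K = (x 0).toNat := ⟨_, rfl⟩
  have hK0 : x 0 ≤ K := by
    rw [hK]; exact Int.self_le_toNat _
  have hQK : (2 : ℤ) ^ ((D + 1) * (2 * K + 1)) ≤ modProd m ((D + 1) * (2 * K + 1)) :=
    two_pow_le_modProd m hm _
  have hKQ : (K : ℤ) < modProd m ((D + 1) * (2 * K + 1)) := by
    have h3 : K < 2 ^ ((D + 1) * (2 * K + 1)) := by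
      refine lt_of_lt_of_le (Nat.lt_two_pow_self) (Nat.pow_le_pow_right (by norm_num) ?_)
      nlinarith [Nat.zero_le D, Nat.zero_le K]
    have h4 : (K : ℤ) < 2 ^ ((D + 1) * (2 * K + 1)) := by exact_mod_cast h3
    linarith
  have hDQ : (D : ℤ) + 1 < modProd m ((D + 1) * (2 * K + 1)) := by
    have h3 : D + 1 < 2 ^ ((D + 1) * (2 * K + 1)) := by
      refine lt_of_lt_of_le (Nat.lt_two_pow_self) (Nat.pow_le_pow_right (by norm_num) ?_)
      nlinarith [Nat.zero_le D, Nat.zero_le K]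
    have h4 : ((D : ℤ) + 1) < 2 ^ ((D + 1) * (2 * K + 1)) := by exact_mod_cast h3
    linarith
  obtain ⟨Q, hQ⟩ : ∃ Q : ℤ, Q = modProd m ((D + 1) * (2 * K + 1)) := ⟨_, rfl⟩
  rw [← hQ] at hQK hKQ hDQ
  have hQ0 : 0 < Q := by rw [hQ]; exact hQpos _
  have hWQ : Q ≤ (W : ℤ) * Q := by nlinarith
  obtain ⟨x0, hx0l, hx0u, hwall⟩ :=
    exists_wall m c hm hc hcop D K ((W : ℤ) * Q + 1)
  rw [← hQ] at hx0u
  -- the first time the walk reaches the wall
  have hex : ∃ n, x0 ≤ x n := by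
    obtain ⟨n, hn⟩ := hunb x0
    exact ⟨n, le_of_lt hn⟩
  obtain ⟨n1, hn1, hmin⟩ : ∃ n1, x0 ≤ x n1 ∧ ∀ k, k < n1 → ¬ x0 ≤ x k :=
    ⟨Nat.find hex, Nat.find_spec hex, fun k hk => Nat.find_min hex hk⟩
  have hn1pos : n1 ≠ 0 := by
    rintro rfl
    linarith
  obtain ⟨n0, rfl⟩ : ∃ n0, n1 = n0 + 1 := ⟨n1 - 1, by omega⟩
  have hbefore : x n0 < x0 := by
    have := hmin n0 (by omega)
    linarith
  have hstepre := hstep n0
  rw [abs_le] at hstepre
  have hin : x (n0 + 1) ≤ x0 + D := by linarith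
  -- the point is low enough to lie in the wall
  have hlow : (y (n0 + 1)).natAbs ≤ K := by
    by_contra hhigh
    push Not at hhigh
    have h1 := hreg (n0 + 1)
    have h2 : (D + 1) * (2 * K + 1) + 2 ≤ (D + 1) * (2 * (y (n0 + 1)).natAbs + 1) := by
      have : 2 * K + 3 ≤ 2 * (y (n0 + 1)).natAbs + 1 := by omega
      calc (D + 1) * (2 * K + 1) + 2 ≤ (D + 1) * (2 * K + 1) + (D + 1) * 2 := by nlinarith
        _ = (D + 1) * (2 * K + 3) := by ring
        _ ≤ (D + 1) * (2 * (y (n0 + 1)).natAbs + 1) := Nat.mul_le_mul_left _ this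
    have h3 := modProd_mono m hm h2
    have h4 := modProd_add_ge m hm ((D + 1) * (2 * K + 1)) 2
    rw [← hQ] at h4
    have h5 : (W : ℤ) * (Q * 2 ^ 2) ≤
        (W : ℤ) * modProd m ((D + 1) * (2 * (y (n0 + 1)).natAbs + 1)) :=
      mul_le_mul_of_nonneg_left (le_trans h4 h3) (by positivity)
    nlinarith
  have hy : |y (n0 + 1)| ≤ (K : ℤ) := by
    rw [Int.abs_eq_natAbs]
    exact_mod_cast hlow
  obtain ⟨i, hi, hdvd⟩ := hwall (x (n0 + 1)) (y (n0 + 1)) hn1 hin hy
  have hmi : (m i : ℤ) ≤ Q := by rw [hQ]; exact le_modProd m hm hi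
  have hmi0 : (0 : ℤ) ≤ (m i : ℤ) := by positivity
  have h6 := hnw (n0 + 1) i hdvd
  have h7 : (W : ℤ) * (m i : ℤ) ^ 2 ≤ (W : ℤ) * Q ^ 2 :=
    mul_le_mul_of_nonneg_left (by nlinarith) (by positivity)
  have h8 : (W : ℤ) * Q ^ 2 ≤ ((W : ℤ) * Q) ^ 2 := by nlinarith [sq_nonneg Q]
  nlinarith [sq_nonneg (y (n0 + 1))]

/-- The wall argument for a sequence of lattice points. -/
theorem no_walk_abs (m : ℕ → ℕ) (c : ℕ → ℤ) (hm : ∀ i, 1 < m i)
    (hc : ∀ i, (m i : ℤ) ∣ c i ^ 2 + 1)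
    (hcop : ∀ i j, i ≠ j → Nat.Coprime (m i) (m j)) (D W : ℕ) (hW : 1 ≤ W)
    (x y : ℕ → ℤ) (hinj : Function.Injective (fun n => (x n, y n)))
    (hstep : ∀ n, |x (n + 1) - x n| ≤ (D : ℤ))
    (hnw : ∀ n i, (m i : ℤ) ∣ x n ^ 2 + y n ^ 2 → x n ^ 2 + y n ^ 2 ≤ (W : ℤ) * (m i : ℤ) ^ 2) :
    ¬ ∀ n, (W : ℤ) * modProd m ((D + 1) * (2 * (y n).natAbs + 1)) ≤ |x n| := by
  intro hreg
  have hW' : (1 : ℤ) ≤ (W : ℤ) := by exact_mod_cast hW
  have hbig : ∀ n, (D : ℤ) < |x n| := by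
    intro n
    have h1 := hreg n
    have h2 := two_pow_le_modProd m hm ((D + 1) * (2 * (y n).natAbs + 1))
    have h3 : D < 2 ^ ((D + 1) * (2 * (y n).natAbs + 1)) := by
      refine lt_of_lt_of_le (Nat.lt_two_pow_self) (Nat.pow_le_pow_right (by norm_num) ?_)
      nlinarith [Nat.zero_le D, Nat.zero_le (y n).natAbs]
    have h4 : (D : ℤ) < 2 ^ ((D + 1) * (2 * (y n).natAbs + 1)) := by exact_mod_cast h3
    have h5 := modProd_pos m hm ((D + 1) * (2 * (y n).natAbs + 1))
    nlinarith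
  have hD : (0 : ℤ) ≤ D := by positivity
  rcases lt_or_ge 0 (x 0) with h0 | h0
  · have hpos : ∀ n, 0 < x n := by
      intro n
      induction n with
      | zero => exact h0
      | succ n ih =>
        have h1 := hbig n
        rw [abs_of_pos ih] at h1
        have h2 := hstep n
        rw [abs_le] at h2
        linarith
    refine no_walk_abs_pos m c hm hc hcop D W hW x y hinj hstep hnw ?_
    intro n
    have := hreg n
    rwa [abs_of_pos (hpos n)] at this
  · have hneg : ∀ n, x n < 0 := by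
      intro n
      induction n with
      | zero =>
        have h1 := hbig 0
        rcases lt_or_eq_of_le h0 with h | h
        · exact h
        · rw [h, abs_zero] at h1; linarith
      | succ n ih =>
        have h1 := hbig n
        rw [abs_of_neg ih] at h1
        have h2 := hstep n
        rw [abs_le] at h2
        linarith
    refine no_walk_abs_pos m c hm hc hcop D W hW (fun n => -x n) y ?_ ?_ ?_ ?_
    · intro a b hab
      simp only [Prod.mk.injEq, neg_inj] at hab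
      exact hinj (Prod.ext hab.1 hab.2)
    · intro n
      have h2 := hstep n
      rw [abs_le] at h2 ⊢
      constructor <;> linarith
    · intro n i hd
      have e : (-x n) ^ 2 = x n ^ 2 := by ring
      rw [e] at hd ⊢
      exact hnw n i hd
    · intro n
      have := hreg n
      rw [abs_of_neg (hneg n)] at this
      exact this

end Vale.Agent.Lib.P015
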