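import Mathlib
import Vale.Agent.Lib.P015.ThinAbs
import Vale.Agent.Lib.P015.Primes41

/-!
# Walks on Gaussian primes near a line with a Gaussian-integer direction

For a Gaussian integer `w ≠ 0` the numbers `z * star w` have real part `|w|` times the
coordinate of `z` along the direction `w` and imaginary part `|w|` times the signed distance of
`z` from the line `ℝ w`.
-/

namespace Vale.Agent.Lib.P015

theorem prime41_gt (j : ℕ) : j < prime41 j := by
  induction j with
  | zero => exact (prime41_spec 0).1.pos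
  | succ j ih =>
    have h := Nat.nth_strictMono infinite41 (Nat.lt_add_one j)
    unfold prime41 at *
    omega

/-- A Gaussian prime whose norm is divisible by `m > 1` has norm at most `m ^ 2`. -/
theorem norm_le_of_dvd_norm (m : ℕ) (hm : 1 < m) (z : GaussianInt) (hz : Prime z)
    (hdvd : (m : ℤ) ∣ z.norm) : z.norm ≤ (m : ℤ) ^ 2 := by
  by_contra h
  push Not at h
  exact not_prime_of_dvd_norm m hm z hdvd h hz

theorem norm_toNat_pos (w : GaussianInt) (hw : w ≠ 0) :
    1 ≤ w.norm.toNat ∧ ((w.norm.toNat : ℕ) : ℤ) = w.norm := by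
  have h0 : 0 ≤ w.norm := GaussianInt.norm_nonneg w
  have h1 : w.norm ≠ 0 := fun h => hw ((Zsqrtd.norm_eq_zero_iff (by norm_num) w).1 h)
  have h2 : ((w.norm.toNat : ℕ) : ℤ) = w.norm := Int.toNat_of_nonneg h0
  refine ⟨?_, h2⟩
  omega

/-- The wall theorem in the coordinates of a Gaussian-integer direction `w`. -/
theorem no_walk_dir (w : GaussianInt) (hw : w ≠ 0) (D : ℕ) (z : ℕ → GaussianInt)
    (hz : ∀ n, Prime (z n)) (hinj : Function.Injective z)
    (hstep : ∀ n, (z (n + 1) - z n).norm ≤ (D : ℤ) ^ 2) :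
    ¬ ∀ n, (w.norm.toNat : ℤ) * modProd (fun i => prime41 (i + w.norm.toNat))
      ((D * w.norm.toNat + 1) * (2 * (z n * star w).im.natAbs + 1)) ≤ |(z n * star w).re| := by
  obtain ⟨hW1, hWn⟩ := norm_toNat_pos w hw
  obtain ⟨W, hW⟩ : ∃ W : ℕ, W = w.norm.toNat := ⟨_, rfl⟩
  rw [← hW] at hW1 hWn ⊢
  have hsw : star w ≠ 0 := by
    intro h
    apply hw
    have := congrArg star h
    simpa using this
  have hnsw : (star w).norm = (W : ℤ) := by rw [Zsqrtd.norm_conj, hWn]
  refine no_walk_abs (fun i => prime41 (i + W)) (fun i => sqrt41 (i + W))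
    (fun i => (prime41_spec _).1.one_lt) (fun i => sqrt41_spec _)
    (fun i j hij => (Nat.coprime_primes (prime41_spec _).1 (prime41_spec _).1).2
      (fun e => hij (by have := prime41_injective e; omega)))
    (D * W) W hW1 (fun n => (z n * star w).re) (fun n => (z n * star w).im) ?_ ?_ ?_
  · intro a b hab
    simp only [Prod.mk.injEq] at hab
    have h1 : z a * star w = z b * star w := Zsqrtd.ext hab.1 hab.2
    exact hinj (mul_right_cancel₀ hsw h1)
  · intro n
    refine re_step_le (D * W) (z n * star w) (z (n + 1) * star w) ?_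
    have e : z (n + 1) * star w - z n * star w = (z (n + 1) - z n) * star w := by ring
    rw [e, Zsqrtd.norm_mul, hnsw]
    have h1 := hstep n
    have hW1' : (1 : ℤ) ≤ (W : ℤ) := by exact_mod_cast hW1
    have hD : (0 : ℤ) ≤ (D : ℤ) ^ 2 := by positivity
    push_cast
    calc (z (n + 1) - z n).norm * (W : ℤ) ≤ (D : ℤ) ^ 2 * (W : ℤ) :=
          mul_le_mul_of_nonneg_right h1 (by positivity)
      _ ≤ (D : ℤ) ^ 2 * (W : ℤ) * (W : ℤ) := le_mul_of_one_le_right (by positivity) hW1'
      _ = ((D : ℤ) * (W : ℤ)) ^ 2 := by ring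
  · intro n i hd
    have hnorm : (z n * star w).re ^ 2 + (z n * star w).im ^ 2 = (z n).norm * (W : ℤ) := by
      rw [← hnsw, ← Zsqrtd.norm_mul, Zsqrtd.norm_def]; ring
    show (z n * star w).re ^ 2 + (z n * star w).im ^ 2 ≤ (W : ℤ) * ((prime41 (i + W) : ℕ) : ℤ) ^ 2
    have hd' : ((prime41 (i + W) : ℕ) : ℤ) ∣ (z n * star w).re ^ 2 + (z n * star w).im ^ 2 := hd
    rw [hnorm] at hd' ⊢
    have hp := (prime41_spec (i + W)).1
    have hgt := prime41_gt (i + W)
    have hcop : Nat.Coprime (prime41 (i + W)) W := by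
      rw [Nat.Prime.coprime_iff_not_dvd hp]
      exact Nat.not_dvd_of_pos_of_lt (by omega) (by omega)
    have hcop' : IsCoprime ((prime41 (i + W) : ℕ) : ℤ) (W : ℤ) := Nat.isCoprime_iff_coprime.2 hcop
    have h2 := norm_le_of_dvd_norm (prime41 (i + W)) hp.one_lt (z n) (hz n)
      (hcop'.dvd_of_dvd_mul_right hd')
    have hW0 : (0 : ℤ) ≤ (W : ℤ) := by positivity
    nlinarith

/-- No walk on pairwise distinct Gaussian primes with bounded steps stays in a strip of bounded
width around a line with Gaussian-integer direction `w`. -/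
theorem no_walk_rational_strip (w : GaussianInt) (hw : w ≠ 0) (D Kb : ℕ) (z : ℕ → GaussianInt)
    (hz : ∀ n, Prime (z n)) (hinj : Function.Injective z)
    (hstep : ∀ n, (z (n + 1) - z n).norm ≤ (D : ℤ) ^ 2) :
    ¬ ∀ n, (z n * star w).im.natAbs ≤ Kb := by
  intro hreg
  obtain ⟨hW1, hWn⟩ := norm_toNat_pos w hw
  obtain ⟨W, hW⟩ : ∃ W : ℕ, W = w.norm.toNat := ⟨_, rfl⟩
  rw [← hW] at hW1 hWn
  have hm : ∀ i, 1 < prime41 (i + W) := fun i => (prime41_spec _).1.one_lt
  obtain ⟨X0, hX0⟩ : ∃ X0 : ℤ, X0 = (W : ℤ) * modProd (fun i => prime41 (i + W))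
      ((D * W + 1) * (2 * Kb + 1)) := ⟨_, rfl⟩
  have hX0pos : 0 < X0 := by
    rw [hX0]
    have := modProd_pos (fun i => prime41 (i + W)) hm ((D * W + 1) * (2 * Kb + 1))
    have hW1' : (1 : ℤ) ≤ (W : ℤ) := by exact_mod_cast hW1
    positivity
  have hfin : (z ⁻¹' {v : GaussianInt | v.norm ≤ X0 ^ 2 + (Kb : ℤ) ^ 2}).Finite :=
    Set.Finite.preimage hinj.injOn (finite_norm_le _)
  obtain ⟨N, hN⟩ := hfin.bddAbove
  have htail : ∀ n, X0 ^ 2 + (Kb : ℤ) ^ 2 < (z (N + 1 + n)).norm := by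
    intro n
    by_contra hcon
    push Not at hcon
    have := hN (show N + 1 + n ∈ z ⁻¹' {v : GaussianInt | v.norm ≤ X0 ^ 2 + (Kb : ℤ) ^ 2}
      from hcon)
    omega
  refine no_walk_dir w hw D (fun n => z (N + 1 + n)) (fun n => hz _)
    (fun a b hab => by have := hinj hab; omega) (fun n => ?_) (fun n => ?_)
  · have := hstep (N + 1 + n)
    rwa [add_assoc] at this
  · show (w.norm.toNat : ℤ) * modProd (fun i => prime41 (i + w.norm.toNat))
      ((D * w.norm.toNat + 1) * (2 * (z (N + 1 + n) * star w).im.natAbs + 1))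
      ≤ |(z (N + 1 + n) * star w).re|
    rw [← hW]
    have h1 := hreg (N + 1 + n)
    have h2 := htail n
    have hnsw : (star w).norm = (W : ℤ) := by rw [Zsqrtd.norm_conj, hWn]
    have hnorm : (z (N + 1 + n) * star w).re ^ 2 + (z (N + 1 + n) * star w).im ^ 2 =
        (z (N + 1 + n)).norm * (W : ℤ) := by
      rw [← hnsw, ← Zsqrtd.norm_mul, Zsqrtd.norm_def]; ring
    generalize z (N + 1 + n) * star w = v at h1 hnorm ⊢
    have h3 : modProd (fun i => prime41 (i + W)) ((D * W + 1) * (2 * v.im.natAbs + 1)) ≤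
        modProd (fun i => prime41 (i + W)) ((D * W + 1) * (2 * Kb + 1)) :=
      modProd_mono _ hm (Nat.mul_le_mul_left _ (by omega))
    have hW0 : (0 : ℤ) ≤ (W : ℤ) := by positivity
    have h4 : (W : ℤ) * modProd (fun i => prime41 (i + W)) ((D * W + 1) * (2 * v.im.natAbs + 1))
        ≤ X0 := by
      rw [hX0]; exact mul_le_mul_of_nonneg_left h3 hW0
    refine le_trans h4 ?_
    have h5 : v.im ^ 2 ≤ (Kb : ℤ) ^ 2 := by
      have : |v.im| ≤ (Kb : ℤ) := by
        rw [Int.abs_eq_natAbs]; exact_mod_cast h1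
      exact sq_le_sq' (by linarith [abs_le.1 this]) (abs_le.1 this).2
    have hW1' : (1 : ℤ) ≤ (W : ℤ) := by exact_mod_cast hW1
    have hn0 : 0 ≤ (z (N + 1 + n)).norm := GaussianInt.norm_nonneg _
    have h6 : X0 ^ 2 < v.re ^ 2 := by nlinarith
    have h7 : |X0| < |v.re| := sq_lt_sq.1 h6
    rw [abs_of_pos hX0pos] at h7
    exact le_of_lt h7

end Vale.Agent.Lib.P015
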