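import Mathlib
import Vale.Agent.Lib.P015.Lines
import Vale.Agent.Lib.P015.Boxes

/-!
# No walk on Gaussian primes with bounded steps stays near a straight line
-/

namespace Vale.Agent.Lib.P015

open ComplexConjugate

/-- A walk on pairwise distinct Gaussian primes with bounded steps does not stay within a
bounded distance `K` of the line `{p + t * e : t ∈ ℝ}` (for `e = 0` this set is a point). -/
theorem no_walk_line (p e : ℂ) (K : ℝ) (D : ℕ) (z : ℕ → GaussianInt)
    (hz : ∀ n, Prime (z n)) (hinj : Function.Injective z)
    (hstep : ∀ n, (z (n + 1) - z n).norm ≤ (D : ℤ) ^ 2) :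
    ¬ ∀ n, ∃ t : ℝ, ‖GaussianInt.toComplex (z n) - (p + t * e)‖ ≤ K := by
  intro hreg
  by_cases hrat : ∃ (w : GaussianInt) (lam : ℝ), w ≠ 0 ∧ e = lam * GaussianInt.toComplex w
  · -- direction proportional to a Gaussian integer
    obtain ⟨w, lam, hw, hew⟩ := hrat
    obtain ⟨Kb, hKb⟩ : ∃ Kb : ℕ,
        K * ‖GaussianInt.toComplex w‖ + |(p * conj (GaussianInt.toComplex w)).im| ≤ Kb :=
      ⟨⌈_⌉₊, Nat.le_ceil _⟩
    refine no_walk_rational_strip w hw D Kb z hz hinj hstep ?_
    intro n
    obtain ⟨t, ht⟩ := hreg n
    have h1 : (((z n * star w).im : ℤ) : ℝ) =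
        (GaussianInt.toComplex (z n) * conj (GaussianInt.toComplex w)).im := by
      rw [GaussianInt.intCast_im, GaussianInt.toComplex_mul, GaussianInt.toComplex_star]
    have h3 : ((t : ℂ) * e * conj (GaussianInt.toComplex w)).im = 0 := by
      rw [hew]
      have e1 : (t : ℂ) * ((lam : ℂ) * GaussianInt.toComplex w) * conj (GaussianInt.toComplex w) =
          ((t * lam * Complex.normSq (GaussianInt.toComplex w) : ℝ) : ℂ) := by
        rw [mul_assoc, mul_assoc, Complex.mul_conj]; push_cast; ring
      rw [e1, Complex.ofReal_im]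
    have h2 : (GaussianInt.toComplex (z n) * conj (GaussianInt.toComplex w)).im =
        ((GaussianInt.toComplex (z n) - (p + t * e)) * conj (GaussianInt.toComplex w)).im +
        (p * conj (GaussianInt.toComplex w)).im := by
      have e2 : GaussianInt.toComplex (z n) * conj (GaussianInt.toComplex w) =
          (GaussianInt.toComplex (z n) - (p + t * e)) * conj (GaussianInt.toComplex w) +
          p * conj (GaussianInt.toComplex w) + (t : ℂ) * e * conj (GaussianInt.toComplex w) := by
        ring
      rw [e2, Complex.add_im, Complex.add_im, h3, add_zero]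
    have h4 : |((GaussianInt.toComplex (z n) - (p + t * e)) *
        conj (GaussianInt.toComplex w)).im| ≤ K * ‖GaussianInt.toComplex w‖ := by
      calc |((GaussianInt.toComplex (z n) - (p + t * e)) * conj (GaussianInt.toComplex w)).im|
          ≤ ‖(GaussianInt.toComplex (z n) - (p + t * e)) * conj (GaussianInt.toComplex w)‖ :=
            Complex.abs_im_le_norm _
        _ = ‖GaussianInt.toComplex (z n) - (p + t * e)‖ * ‖GaussianInt.toComplex w‖ := by
            rw [norm_mul, Complex.norm_conj]
        _ ≤ K * ‖GaussianInt.toComplex w‖ := mul_le_mul_of_nonneg_right ht (norm_nonneg _)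
    have h5 : |(((z n * star w).im : ℤ) : ℝ)| ≤ (Kb : ℝ) := by
      rw [h1, h2]
      have := abs_add_le ((GaussianInt.toComplex (z n) - (p + t * e)) *
        conj (GaussianInt.toComplex w)).im (p * conj (GaussianInt.toComplex w)).im
      linarith
    have h6 : (((z n * star w).im.natAbs : ℕ) : ℝ) ≤ (Kb : ℝ) := by
      rw [Nat.cast_natAbs, Int.cast_abs]; exact h5
    exact_mod_cast h6
  · -- irrational slope
    push Not at hrat
    have he1 : e.re ≠ 0 := by
      intro h0
      refine hrat ⟨0, 1⟩ e.im ?_ ?_
      · intro h
        have := congrArg Zsqrtd.im h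
        simp at this
      · apply Complex.ext <;> simp [GaussianInt.toComplex_def, h0]
    have hirr : Irrational (e.im / e.re) := by
      rw [irrational_iff_ne_rational]
      intro a b hb hab
      refine hrat ⟨b, a⟩ (e.re / b) ?_ ?_
      · intro h
        have := congrArg Zsqrtd.re h
        simp at this
        exact hb this
      · have hb' : (b : ℝ) ≠ 0 := by exact_mod_cast hb
        have h7 : e.im = e.re * a / b := by
          field_simp at hab
          field_simp
          linarith
        apply Complex.ext
        · simp [GaussianInt.toComplex_def]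
          field_simp
        · simp [GaussianInt.toComplex_def]
          rw [h7]; field_simp
    refine no_walk_irrational (e.im / e.re) (p.im - e.im / e.re * p.re)
      (K * (1 + |e.im / e.re|)) hirr D z hz hinj hstep ?_
    intro n
    obtain ⟨t, ht⟩ := hreg n
    obtain ⟨δ, hδ⟩ : ∃ δ : ℂ, δ = GaussianInt.toComplex (z n) - (p + t * e) := ⟨_, rfl⟩
    rw [← hδ] at ht
    have hre : ((z n).re : ℝ) = δ.re + p.re + t * e.re := by
      rw [GaussianInt.intCast_re, hδ]; simp; ring
    have him : ((z n).im : ℝ) = δ.im + p.im + t * e.im := by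
      rw [GaussianInt.intCast_im, hδ]; simp; ring
    have e1 : ((z n).im : ℝ) - e.im / e.re * (z n).re - (p.im - e.im / e.re * p.re) =
        δ.im - e.im / e.re * δ.re := by
      rw [hre, him]; field_simp; ring
    rw [e1]
    have h8 := Complex.abs_im_le_norm δ
    have h9 := Complex.abs_re_le_norm δ
    have h10 : |e.im / e.re * δ.re| ≤ |e.im / e.re| * K := by
      rw [abs_mul]
      exact mul_le_mul_of_nonneg_left (le_trans h9 ht) (abs_nonneg _)
    have h11 := abs_le.1 (le_trans h8 ht)
    have h12 := abs_le.1 h10
    rw [abs_le]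
    constructor <;> nlinarith

end Vale.Agent.Lib.P015
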