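import Mathlib

/-!
# Barrier strips for periodic planar step systems

`S x y` is a doubly periodic set of lattice points, `U dx dy` a set of allowed steps of
bounded height.  A barrier is a colouring `B` of a horizontal strip which no step between
two points of `S` can cross.  Periodic copies of the strip then confine every path.
-/

namespace Vale.Agent.Lib.P015

section Confine

variable (S U B : ℤ → ℤ → Prop) (M H r c : ℤ)

/-- A path of `S`-points with `U`-steps that starts below the `k`-th copy of the strip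
never gets above it. -/
theorem confine_up (hrH : r ≤ H)
    (hper : ∀ k x y : ℤ, S x (y + k * M) ↔ S x y)
    (hU : ∀ dx dy, U dx dy → |dy| ≤ r)
    (hbot : ∀ x y, c ≤ y → y < c + r → S x y → B x y)
    (htop : ∀ x y, c + H - r ≤ y → y < c + H → S x y → ¬ B x y)
    (hcl : ∀ x y dx dy, c ≤ y → y < c + H → c ≤ y + dy → y + dy < c + H →
      S x y → S (x + dx) (y + dy) → U dx dy → (B x y ↔ B (x + dx) (y + dy)))
    (p : ℕ → ℤ × ℤ) (hS : ∀ n, S (p n).1 (p n).2)
    (hstep : ∀ n, U ((p (n + 1)).1 - (p n).1) ((p (n + 1)).2 - (p n).2))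
    (k : ℤ) (hk : (p 0).2 < c + k * M) :
    ∀ n, (p n).2 < c + k * M + H := by
  have hH : 0 ≤ H := by
    have h0 := hU _ _ (hstep 0)
    have := abs_nonneg ((p (0 + 1)).2 - (p 0).2)
    linarith
  have inv : ∀ n, (p n).2 < c + k * M ∨
      (c + k * M ≤ (p n).2 ∧ (p n).2 < c + k * M + H ∧ B (p n).1 ((p n).2 - k * M)) := by
    intro n
    induction n with
    | zero => exact Or.inl hk
    | succ n ih =>
      have hst := hstep n
      have hdy := hU _ _ hst
      rw [abs_le] at hdy
      have hSn := hS n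
      have hSn1 := hS (n + 1)
      have e1 : (p (n + 1)).1 = (p n).1 + ((p (n + 1)).1 - (p n).1) := by ring
      have e2 : (p (n + 1)).2 - k * M = ((p n).2 - k * M) + ((p (n + 1)).2 - (p n).2) := by ring
      have hSn' : S (p n).1 ((p n).2 - k * M) := by
        have := hper k (p n).1 ((p n).2 - k * M)
        rw [sub_add_cancel] at this
        exact this.1 hSn
      have hSn1' : S (p (n + 1)).1 ((p (n + 1)).2 - k * M) := by
        have := hper k (p (n + 1)).1 ((p (n + 1)).2 - k * M)
        rw [sub_add_cancel] at this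
        exact this.1 hSn1
      rcases ih with h | ⟨h1, h2, h3⟩
      · by_cases h' : (p (n + 1)).2 < c + k * M
        · exact Or.inl h'
        · right
          refine ⟨by linarith, by linarith, ?_⟩
          exact hbot _ _ (by linarith) (by linarith) hSn1'
      · by_cases h' : (p (n + 1)).2 < c + k * M
        · exact Or.inl h'
        · by_cases h'' : (p (n + 1)).2 < c + k * M + H
          · right
            refine ⟨by linarith, h'', ?_⟩
            have hc := hcl (p n).1 ((p n).2 - k * M) ((p (n + 1)).1 - (p n).1)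
              ((p (n + 1)).2 - (p n).2) (by linarith) (by linarith) (by linarith) (by linarith)
              hSn' (by rw [← e1, ← e2]; exact hSn1') hst
            rw [← e1, ← e2] at hc
            exact hc.1 h3
          · exfalso
            exact htop (p n).1 ((p n).2 - k * M) (by linarith) (by linarith) hSn' h3
  intro n
  rcases inv n with h | ⟨_, h2, _⟩
  · linarith
  · exact h2

/-- A path of `S`-points with `U`-steps that starts above the `k`-th copy of the strip
never gets below it. -/
theorem confine_down (hrH : r ≤ H)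
    (hper : ∀ k x y : ℤ, S x (y + k * M) ↔ S x y)
    (hU : ∀ dx dy, U dx dy → |dy| ≤ r)
    (hbot : ∀ x y, c ≤ y → y < c + r → S x y → B x y)
    (htop : ∀ x y, c + H - r ≤ y → y < c + H → S x y → ¬ B x y)
    (hcl : ∀ x y dx dy, c ≤ y → y < c + H → c ≤ y + dy → y + dy < c + H →
      S x y → S (x + dx) (y + dy) → U dx dy → (B x y ↔ B (x + dx) (y + dy)))
    (p : ℕ → ℤ × ℤ) (hS : ∀ n, S (p n).1 (p n).2)
    (hstep : ∀ n, U ((p (n + 1)).1 - (p n).1) ((p (n + 1)).2 - (p n).2))
    (k : ℤ) (hk : c + k * M + H ≤ (p 0).2) :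
    ∀ n, c + k * M ≤ (p n).2 := by
  have hH : 0 ≤ H := by
    have h0 := hU _ _ (hstep 0)
    have := abs_nonneg ((p (0 + 1)).2 - (p 0).2)
    linarith
  have inv : ∀ n, c + k * M + H ≤ (p n).2 ∨
      (c + k * M ≤ (p n).2 ∧ (p n).2 < c + k * M + H ∧ ¬ B (p n).1 ((p n).2 - k * M)) := by
    intro n
    induction n with
    | zero => exact Or.inl hk
    | succ n ih =>
      have hst := hstep n
      have hdy := hU _ _ hst
      rw [abs_le] at hdy
      have hSn := hS n
      have hSn1 := hS (n + 1)
      have e1 : (p (n + 1)).1 = (p n).1 + ((p (n + 1)).1 - (p n).1) := by ring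
      have e2 : (p (n + 1)).2 - k * M = ((p n).2 - k * M) + ((p (n + 1)).2 - (p n).2) := by ring
      have hSn' : S (p n).1 ((p n).2 - k * M) := by
        have := hper k (p n).1 ((p n).2 - k * M)
        rw [sub_add_cancel] at this
        exact this.1 hSn
      have hSn1' : S (p (n + 1)).1 ((p (n + 1)).2 - k * M) := by
        have := hper k (p (n + 1)).1 ((p (n + 1)).2 - k * M)
        rw [sub_add_cancel] at this
        exact this.1 hSn1
      rcases ih with h | ⟨h1, h2, h3⟩
      · by_cases h' : c + k * M + H ≤ (p (n + 1)).2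
        · exact Or.inl h'
        · right
          refine ⟨by linarith, by linarith, ?_⟩
          exact htop _ _ (by linarith) (by linarith) hSn1'
      · by_cases h' : c + k * M + H ≤ (p (n + 1)).2
        · exact Or.inl h'
        · by_cases h'' : c + k * M ≤ (p (n + 1)).2
          · right
            refine ⟨h'', by linarith, ?_⟩
            have hc := hcl (p n).1 ((p n).2 - k * M) ((p (n + 1)).1 - (p n).1)
              ((p (n + 1)).2 - (p n).2) (by linarith) (by linarith) (by linarith) (by linarith)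
              hSn' (by rw [← e1, ← e2]; exact hSn1') hst
            rw [← e1, ← e2] at hc
            exact fun hb => h3 (hc.2 hb)
          · exfalso
            exact h3 (hbot (p n).1 ((p n).2 - k * M) (by linarith) (by linarith) hSn')
  intro n
  rcases inv n with h | ⟨h1, _, _⟩
  · linarith
  · exact h1

/-- Every path of `S`-points with `U`-steps has bounded second coordinate. -/
theorem bounded_snd (hM : 0 < M) (hrH : r ≤ H)
    (hper : ∀ k x y : ℤ, S x (y + k * M) ↔ S x y)
    (hU : ∀ dx dy, U dx dy → |dy| ≤ r)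
    (hbot : ∀ x y, c ≤ y → y < c + r → S x y → B x y)
    (htop : ∀ x y, c + H - r ≤ y → y < c + H → S x y → ¬ B x y)
    (hcl : ∀ x y dx dy, c ≤ y → y < c + H → c ≤ y + dy → y + dy < c + H →
      S x y → S (x + dx) (y + dy) → U dx dy → (B x y ↔ B (x + dx) (y + dy)))
    (p : ℕ → ℤ × ℤ) (hS : ∀ n, S (p n).1 (p n).2)
    (hstep : ∀ n, U ((p (n + 1)).1 - (p n).1) ((p (n + 1)).2 - (p n).2)) :
    ∃ lo hi : ℤ, ∀ n, lo ≤ (p n).2 ∧ (p n).2 ≤ hi := by
  have hup := confine_up S U B M H r c hrH hper hU hbot htop hcl p hS hstep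
    (((p 0).2 - c) / M + 1) (by
      have := Int.lt_ediv_add_one_mul_self ((p 0).2 - c) hM
      linarith)
  have hdown := confine_down S U B M H r c hrH hper hU hbot htop hcl p hS hstep
    (((p 0).2 - c - H) / M) (by
      have := Int.ediv_mul_le ((p 0).2 - c - H) (ne_of_gt hM)
      linarith)
  exact ⟨_, _, fun n => ⟨hdown n, le_of_lt (hup n)⟩⟩

/-- If `S` and `U` are symmetric under exchanging the coordinates, a barrier strip
forbids infinite injective paths. -/
theorem no_infinite_path (hM : 0 < M) (hrH : r ≤ H)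
    (hper : ∀ k x y : ℤ, S x (y + k * M) ↔ S x y)
    (hsym : ∀ x y, S x y → S y x)
    (hUsym : ∀ dx dy, U dx dy → U dy dx)
    (hU : ∀ dx dy, U dx dy → |dy| ≤ r)
    (hbot : ∀ x y, c ≤ y → y < c + r → S x y → B x y)
    (htop : ∀ x y, c + H - r ≤ y → y < c + H → S x y → ¬ B x y)
    (hcl : ∀ x y dx dy, c ≤ y → y < c + H → c ≤ y + dy → y + dy < c + H →
      S x y → S (x + dx) (y + dy) → U dx dy → (B x y ↔ B (x + dx) (y + dy)))
    (p : ℕ → ℤ × ℤ) (hS : ∀ n, S (p n).1 (p n).2)
    (hstep : ∀ n, U ((p (n + 1)).1 - (p n).1) ((p (n + 1)).2 - (p n).2)) :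
    ¬ Function.Injective p := by
  obtain ⟨lo2, hi2, h2⟩ := bounded_snd S U B M H r c hM hrH hper hU hbot htop hcl p hS hstep
  obtain ⟨lo1, hi1, h1⟩ := bounded_snd S U B M H r c hM hrH hper hU hbot htop hcl
    (fun n => ((p n).2, (p n).1)) (fun n => hsym _ _ (hS n)) (fun n => hUsym _ _ (hstep n))
  intro hinj
  have hfin : (Set.Icc lo1 hi1 ×ˢ Set.Icc lo2 hi2 : Set (ℤ × ℤ)).Finite :=
    (Set.finite_Icc lo1 hi1).prod (Set.finite_Icc lo2 hi2)
  have hsub : Set.range p ⊆ Set.Icc lo1 hi1 ×ˢ Set.Icc lo2 hi2 := by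
    rintro _ ⟨n, rfl⟩
    exact ⟨h1 n, h2 n⟩
  exact (Set.infinite_range_of_injective hinj) (hfin.subset hsub)

end Confine

end Vale.Agent.Lib.P015
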