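import Mathlib
import Vale.Agent.Lib.P015.Barrier

/-!
# A barrier strip modulo 195 for nearest-neighbour steps

The lattice points `(x, y)` with `gcd (x ^ 2 + y ^ 2, 195) = 1` have only finite components
under the steps `(±1, 0)`, `(0, ±1)`.  The barrier lives in the rows `2 ≤ y < 9`.
-/

namespace Vale.Agent.Lib.P015

/-- Reduce the coprimality test to natural numbers and to a residue of `x`. -/
theorem gcd_red (M : ℕ) (hM : 0 < M) (x y : ℤ) (hy : 0 ≤ y) :
    Int.gcd (x ^ 2 + y ^ 2) (M : ℤ) =
      Nat.gcd ((x % M).toNat * (x % M).toNat + y.toNat * y.toNat) M := by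
  have hM' : (M : ℤ) ≠ 0 := by exact_mod_cast (ne_of_gt hM)
  have h1 : 0 ≤ x % (M : ℤ) := Int.emod_nonneg x hM'
  have hx : x = x % (M : ℤ) + (M : ℤ) * (x / (M : ℤ)) := (Int.emod_add_mul_ediv x M).symm
  have e : x ^ 2 + y ^ 2 = ((((x % M).toNat * (x % M).toNat + y.toNat * y.toNat : ℕ) : ℤ)) +
      (2 * (x % (M : ℤ)) * (x / (M : ℤ)) + (M : ℤ) * (x / (M : ℤ)) ^ 2) * (M : ℤ) := by
    push_cast
    rw [Int.toNat_of_nonneg h1, Int.toNat_of_nonneg hy]
    nth_rewrite 1 [hx]
    ring
  rw [e, Int.gcd_add_mul_right_left, Int.gcd_natCast_natCast]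

/-- Periodicity of the coprimality test in the second coordinate. -/
theorem gcd_per (M : ℤ) (k x y : ℤ) :
    Int.gcd (x ^ 2 + (y + k * M) ^ 2) M = Int.gcd (x ^ 2 + y ^ 2) M := by
  have e : x ^ 2 + (y + k * M) ^ 2 = (x ^ 2 + y ^ 2) + (2 * y * k + k ^ 2 * M) * M := by ring
  rw [e, Int.gcd_add_mul_right_left]

/-- The rows of the barrier colouring; row `j` sits at height `2 + j`. -/
def rows195 : List ℕ :=
  [14732516307442026816304245478638529670449116529183226769829,
   2164334186971256818920928220099542986356529266007513112992,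
   4707855653770850149925638266614649069448824427832414306352,
   21969902045156170791353683728337482132109922985276921085980,
   2364781011586036219650170081874503425468420470079488,
   1496623348553011178956767133852496195973138717081600,
   0]

/-- Coprimality test on natural coordinates. -/
def sN195 (x y : ℕ) : Bool := Nat.gcd (x * x + y * y) 195 == 1

/-- The colouring on natural coordinates (`j` is the row index inside the strip). -/
def bN195 (x j : ℕ) : Bool := (rows195.getD j 0).testBit x

/-- The finite check of the barrier conditions. -/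
def chk195 : Bool :=
  (List.range 195).all fun x =>
    (!sN195 x 2 || bN195 x 0) &&
    (!sN195 x 8 || !bN195 x 6) &&
    (List.range 7).all fun j =>
      (!(sN195 x (2 + j) && sN195 ((x + 1) % 195) (2 + j)) ||
        (bN195 x j == bN195 ((x + 1) % 195) j)) &&
      (!(sN195 x (2 + j) && sN195 x (2 + (j + 1))) || (bN195 x j == bN195 x (j + 1)))

theorem chk195_true : chk195 = true := by decide +kernel

theorem chk195_spec (x : ℕ) (hx : x < 195) :
    (sN195 x 2 = true → bN195 x 0 = true) ∧
    (sN195 x 8 = true → bN195 x 6 = false) ∧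
    ∀ j, j < 7 →
      (sN195 x (2 + j) = true → sN195 ((x + 1) % 195) (2 + j) = true →
        bN195 x j = bN195 ((x + 1) % 195) j) ∧
      (sN195 x (2 + j) = true → sN195 x (2 + (j + 1)) = true →
        bN195 x j = bN195 x (j + 1)) := by
  have h := chk195_true
  unfold chk195 at h
  rw [List.all_eq_true] at h
  have hx' := h x (List.mem_range.2 hx)
  simp only [Bool.and_eq_true, Bool.or_eq_true, Bool.not_eq_true', List.all_eq_true,
    List.mem_range, beq_iff_eq] at hx'
  obtain ⟨⟨h1, h2⟩, h3⟩ := hx'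
  refine ⟨?_, ?_, ?_⟩
  · intro hs
    rcases h1 with h1 | h1
    · rw [hs] at h1; exact absurd h1 (by decide)
    · exact h1
  · intro hs
    rcases h2 with h2 | h2
    · rw [hs] at h2; exact absurd h2 (by decide)
    · exact h2
  · intro j hj
    obtain ⟨h4, h5⟩ := h3 j hj
    refine ⟨?_, ?_⟩
    · intro hs hs'
      rcases h4 with h4 | h4
      · rw [hs, hs'] at h4; exact absurd h4 (by decide)
      · exact h4
    · intro hs hs'
      rcases h5 with h5 | h5
      · rw [hs, hs'] at h5; exact absurd h5 (by decide)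
      · exact h5

/-- The periodic set of lattice points. -/
def S195 (x y : ℤ) : Prop := Int.gcd (x ^ 2 + y ^ 2) ((195 : ℕ) : ℤ) = 1

/-- Nearest-neighbour steps. -/
def stepNN (dx dy : ℤ) : Prop :=
  (dx = 1 ∧ dy = 0) ∨ (dx = -1 ∧ dy = 0) ∨ (dx = 0 ∧ dy = 1) ∨ (dx = 0 ∧ dy = -1)

/-- The barrier colouring on integer coordinates. -/
def B195 (x y : ℤ) : Prop := bN195 (x % 195).toNat (y - 2).toNat = true

theorem S195_iff (x y : ℤ) (hy : 0 ≤ y) :
    S195 x y ↔ sN195 (x % 195).toNat y.toNat = true := by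
  unfold S195 sN195
  rw [gcd_red 195 (by norm_num) x y hy]
  simp

theorem toNat_emod_lt (x : ℤ) : (x % 195).toNat < 195 := by
  have h1 : 0 ≤ x % 195 := Int.emod_nonneg x (by norm_num)
  have h2 : x % 195 < 195 := Int.emod_lt_of_pos x (by norm_num)
  omega

theorem toNat_emod_succ (x : ℤ) : ((x + 1) % 195).toNat = ((x % 195).toNat + 1) % 195 := by
  have h1 : 0 ≤ x % 195 := Int.emod_nonneg x (by norm_num)
  have h2 : x % 195 < 195 := Int.emod_lt_of_pos x (by norm_num)
  omega

theorem cl195_right (x y : ℤ) (hy1 : 2 ≤ y) (hy2 : y < 9) (h1 : S195 x y) (h2 : S195 (x + 1) y) :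
    (B195 x y ↔ B195 (x + 1) y) := by
  rw [S195_iff _ _ (by linarith)] at h1 h2
  have hj : (y - 2).toNat < 7 := by omega
  have hyj : y.toNat = 2 + (y - 2).toNat := by omega
  have h := ((chk195_spec _ (toNat_emod_lt x)).2.2 _ hj).1
  rw [toNat_emod_succ, hyj] at h2
  rw [hyj] at h1
  have h' := h h1 h2
  unfold B195
  rw [toNat_emod_succ, h']

theorem cl195_up (x y : ℤ) (hy1 : 2 ≤ y) (hy2 : y + 1 < 9) (h1 : S195 x y)
    (h2 : S195 x (y + 1)) : (B195 x y ↔ B195 x (y + 1)) := by
  rw [S195_iff _ _ (by linarith)] at h1 h2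
  have hj : (y - 2).toNat < 7 := by omega
  have hyj : y.toNat = 2 + (y - 2).toNat := by omega
  have hyj' : (y + 1).toNat = 2 + ((y - 2).toNat + 1) := by omega
  have hyj'' : (y + 1 - 2).toNat = (y - 2).toNat + 1 := by omega
  have h := ((chk195_spec _ (toNat_emod_lt x)).2.2 _ hj).2
  rw [hyj'] at h2
  rw [hyj] at h1
  have h' := h h1 h2
  unfold B195
  rw [hyj'', h']

/-- The nearest-neighbour graph on the points coprime to 195 has no infinite injective path. -/
theorem core195 (p : ℕ → ℤ × ℤ)
    (hS : ∀ n, Int.gcd ((p n).1 ^ 2 + (p n).2 ^ 2) ((195 : ℕ) : ℤ) = 1)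
    (hstep : ∀ n, stepNN ((p (n + 1)).1 - (p n).1) ((p (n + 1)).2 - (p n).2)) :
    ¬ Function.Injective p := by
  refine no_infinite_path S195 stepNN B195 195 7 1 2 (by norm_num) (by norm_num) ?_ ?_ ?_ ?_ ?_ ?_ ?_
    p hS hstep
  · intro k x y
    unfold S195
    have := gcd_per ((195 : ℕ) : ℤ) k x y
    simp only [Nat.cast_ofNat] at this ⊢
    rw [this]
  · intro x y h
    unfold S195 at h ⊢
    rw [add_comm]; exact h
  · intro dx dy h
    unfold stepNN at h ⊢
    tauto
  · intro dx dy h
    unfold stepNN at h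
    rcases h with ⟨_, h⟩ | ⟨_, h⟩ | ⟨_, h⟩ | ⟨_, h⟩ <;> rw [h] <;> norm_num
  · intro x y h1 h2 hs
    have hy : y = 2 := by omega
    subst hy
    rw [S195_iff _ _ (by norm_num)] at hs
    exact (chk195_spec _ (toNat_emod_lt x)).1 hs
  · intro x y h1 h2 hs
    have hy : y = 8 := by omega
    subst hy
    rw [S195_iff _ _ (by norm_num)] at hs
    have h6 := (chk195_spec _ (toNat_emod_lt x)).2.1 hs
    intro hB
    have hB' : bN195 (x % 195).toNat 6 = true := hB
    rw [h6] at hB'
    exact Bool.false_ne_true hB'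
  · intro x y dx dy h1 h2 h3 h4 hs hs' hU
    unfold stepNN at hU
    rcases hU with ⟨rfl, rfl⟩ | ⟨rfl, rfl⟩ | ⟨rfl, rfl⟩ | ⟨rfl, rfl⟩
    · simp only [add_zero] at hs' ⊢
      exact cl195_right x y (by linarith) (by linarith) hs hs'
    · simp only [add_zero] at hs' ⊢
      have := cl195_right (x + -1) y (by linarith) (by linarith) hs' (by simpa using hs)
      simp only [neg_add_cancel_right] at this
      exact this.symm
    · simp only [add_zero] at hs' ⊢
      exact cl195_up x y (by linarith) (by linarith) hs hs'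
    · simp only [add_zero] at hs' ⊢
      have := cl195_up x (y + -1) (by linarith) (by linarith) hs' (by simpa using hs)
      simp only [neg_add_cancel_right] at this
      exact this.symm

end Vale.Agent.Lib.P015
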