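import Mathlib
import Vale.Agent.Lib.P015.Primes41

/-!
# An explicit bound for the primes congruent to `1` modulo `4`, and the thin-region theorem
with an explicit region

The numbers `k ^ 2 + 1` with `1 ≤ k ≤ 2 ^ M` are pairwise distinct, and their prime factors
are `2` or congruent to `1` modulo `4`; counting exponent vectors shows that there are many
such primes below `4 ^ M + 2`.
-/

namespace Vale.Agent.Lib.P015

theorem prime_dvd_sq_add_one (p k : ℕ) (hp : p.Prime) (h : p ∣ k ^ 2 + 1) :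
    p = 2 ∨ p % 4 = 1 := by
  have : Fact p.Prime := Fact.mk hp
  have h0 : ((k ^ 2 + 1 : ℕ) : ZMod p) = 0 := (ZMod.natCast_eq_zero_iff _ _).2 h
  have h1 : (k : ZMod p) ^ 2 = -1 := by
    push_cast at h0
    linear_combination h0
  have h2 := ZMod.mod_four_ne_three_of_sq_eq_neg_one h1
  rcases hp.eq_two_or_odd with h3 | h3
  · exact Or.inl h3
  · right; omega

theorem count41_lower (M r : ℕ) (h : (2 * M + 1) ^ (r + 1) < 2 ^ M) :
    r < Nat.count (fun p => p.Prime ∧ p % 4 = 1) (4 ^ M + 2) := by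
  rw [Nat.count_eq_card_filter_range]
  by_contra hcon
  push Not at hcon
  have hM : 1 ≤ M := by
    by_contra hM0
    have hM0' : M = 0 := by omega
    subst hM0'
    simp at h
  obtain ⟨S, hS⟩ : ∃ S : Finset ℕ, S = insert 2
      ((Finset.range (4 ^ M + 2)).filter (fun p => p.Prime ∧ p % 4 = 1)) := ⟨_, rfl⟩
  have hScard : S.card ≤ r + 1 := by
    rw [hS]; exact (Finset.card_insert_le _ _).trans (by omega)
  have hSmem : ∀ p k : ℕ, k < 2 ^ M → p.Prime → p ∣ (k + 1) ^ 2 + 1 → p ∈ S := by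
    intro p k hk hp hdvd
    rw [hS, Finset.mem_insert, Finset.mem_filter, Finset.mem_range]
    rcases prime_dvd_sq_add_one p (k + 1) hp hdvd with h2 | h1
    · exact Or.inl h2
    · right
      refine ⟨?_, hp, h1⟩
      have hle := Nat.le_of_dvd (by positivity) hdvd
      have h3 : (k + 1) ^ 2 ≤ (2 ^ M) ^ 2 := Nat.pow_le_pow_left (by omega) 2
      have e : (2 ^ M) ^ 2 = 4 ^ M := by
        rw [← pow_mul, mul_comm, pow_mul]; norm_num
      omega
  have hprime : ∀ p ∈ S, 2 ≤ p := by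
    intro p hp
    rw [hS, Finset.mem_insert, Finset.mem_filter] at hp
    rcases hp with rfl | ⟨_, hp, _⟩
    · exact le_refl 2
    · exact hp.two_le
  let f : ℕ → (S → ℕ) := fun k p => ((k + 1) ^ 2 + 1).factorization p
  have hmaps : Set.MapsTo f (Finset.range (2 ^ M) : Set ℕ)
      (Fintype.piFinset (fun _ : S => Finset.range (2 * M + 1)) : Set (S → ℕ)) := by
    intro k hk
    rw [Finset.mem_coe, Finset.mem_range] at hk
    rw [Finset.mem_coe, Fintype.mem_piFinset]
    intro p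
    rw [Finset.mem_range]
    have hn : (k + 1) ^ 2 + 1 ≠ 0 := by positivity
    have h1 := Nat.ordProj_le (p : ℕ) hn
    have h2 : 2 ^ ((k + 1) ^ 2 + 1).factorization p ≤
        (p : ℕ) ^ ((k + 1) ^ 2 + 1).factorization p :=
      Nat.pow_le_pow_left (hprime p p.2) _
    have h3 : (k + 1) ^ 2 ≤ (2 ^ M) ^ 2 := Nat.pow_le_pow_left (by omega) 2
    have e : (2 ^ M) ^ 2 = 2 ^ (2 * M) := by rw [← pow_mul, mul_comm]
    have h4 : 2 ^ ((k + 1) ^ 2 + 1).factorization p < 2 ^ (2 * M + 1) := by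
      have e2 : 2 ^ (2 * M + 1) = 2 * 2 ^ (2 * M) := by ring
      have h5 : 2 ^ 1 ≤ 2 ^ (2 * M) := Nat.pow_le_pow_right (by norm_num) (by omega)
      omega
    exact (Nat.pow_lt_pow_iff_right (by norm_num)).1 h4
  have hinj : Set.InjOn f (Finset.range (2 ^ M) : Set ℕ) := by
    intro k hk l hl hkl
    rw [Finset.mem_coe, Finset.mem_range] at hk hl
    have hn : (k + 1) ^ 2 + 1 ≠ 0 := by positivity
    have hn' : (l + 1) ^ 2 + 1 ≠ 0 := by positivity
    have heq : (k + 1) ^ 2 + 1 = (l + 1) ^ 2 + 1 := by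
      refine Nat.eq_of_factorization_eq hn hn' (fun p => ?_)
      by_cases hp : p.Prime
      · by_cases hpS : p ∈ S
        · exact congrFun hkl ⟨p, hpS⟩
        · rw [Nat.factorization_eq_zero_of_not_dvd (fun hd => hpS (hSmem p k hk hp hd)),
            Nat.factorization_eq_zero_of_not_dvd (fun hd => hpS (hSmem p l hl hp hd))]
      · rw [Nat.factorization_eq_zero_of_not_prime _ hp,
          Nat.factorization_eq_zero_of_not_prime _ hp]
    have h1 : (k + 1) ^ 2 = (l + 1) ^ 2 := by omega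
    have h2 := Nat.pow_left_injective (by norm_num : (2 : ℕ) ≠ 0) h1
    omega
  have hcard := Finset.card_le_card_of_injOn f hmaps hinj
  rw [Finset.card_range, Fintype.card_piFinset] at hcard
  simp only [Finset.card_range, Finset.prod_const, Finset.card_univ, Fintype.card_coe] at hcard
  have h6 : (2 * M + 1) ^ S.card ≤ (2 * M + 1) ^ (r + 1) :=
    Nat.pow_le_pow_right (by omega) hScard
  omega

theorem aux_pow (r : ℕ) : 2 * r ^ 2 + 12 * r + 14 ≤ 2 ^ (r + 5) := by
  induction r with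
  | zero => norm_num
  | succ r ih =>
    have e : 2 ^ (r + 1 + 5) = 2 * 2 ^ (r + 5) := by ring
    nlinarith

/-- An explicit bound for the `r`-th prime congruent to `1` modulo `4`. -/
theorem prime41_lt (r : ℕ) : prime41 r < 4 ^ ((r + 1) * (r + 5) + 1) + 2 := by
  apply Nat.nth_lt_of_lt_count
  apply count41_lower
  have h1 : 2 * ((r + 1) * (r + 5) + 1) + 1 ≤ 2 ^ (r + 5) := by
    have := aux_pow r
    nlinarith
  calc (2 * ((r + 1) * (r + 5) + 1) + 1) ^ (r + 1) ≤ (2 ^ (r + 5)) ^ (r + 1) :=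
        Nat.pow_le_pow_left h1 _
    _ = 2 ^ ((r + 1) * (r + 5)) := by rw [← pow_mul, mul_comm]
    _ < 2 ^ ((r + 1) * (r + 5) + 1) := Nat.pow_lt_pow_right (by norm_num) (by omega)

/-- An explicit bound for the product of the `n` smallest primes congruent to `1` modulo `4`. -/
theorem primorial41_le (n : ℕ) : ∏ i ∈ Finset.range n, prime41 i ≤ 2 ^ (2 * (n + 2) ^ 3) := by
  have h1 : ∀ i ∈ Finset.range n, prime41 i ≤ 2 ^ (2 * (n + 2) ^ 2 + 1) := by
    intro i hi
    rw [Finset.mem_range] at hi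
    have h2 := prime41_lt i
    have h3 : (4 : ℕ) ^ ((i + 1) * (i + 5) + 1) = 2 ^ (2 * ((i + 1) * (i + 5) + 1)) := by
      rw [pow_mul]; norm_num
    have h4 : 2 ^ (2 * ((i + 1) * (i + 5) + 1)) ≤ 2 ^ (2 * (n + 2) ^ 2) :=
      Nat.pow_le_pow_right (by norm_num) (by nlinarith)
    have h5 : 2 ^ (2 * (n + 2) ^ 2 + 1) = 2 * 2 ^ (2 * (n + 2) ^ 2) := by ring
    have h6 : 2 ≤ 2 ^ (2 * (n + 2) ^ 2) := by
      calc 2 = 2 ^ 1 := by norm_num
        _ ≤ 2 ^ (2 * (n + 2) ^ 2) := Nat.pow_le_pow_right (by norm_num) (by nlinarith)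
    omega
  calc ∏ i ∈ Finset.range n, prime41 i ≤ (2 ^ (2 * (n + 2) ^ 2 + 1)) ^ (Finset.range n).card :=
        Finset.prod_le_pow_card _ _ _ h1
    _ = 2 ^ ((2 * (n + 2) ^ 2 + 1) * n) := by rw [Finset.card_range, ← pow_mul]
    _ ≤ 2 ^ (2 * (n + 2) ^ 3) := Nat.pow_le_pow_right (by norm_num) (by nlinarith)

theorem primorial41_mono {k l : ℕ} (h : k ≤ l) :
    ∏ i ∈ Finset.range k, prime41 i ≤ ∏ i ∈ Finset.range l, prime41 i := by
  refine Finset.prod_le_prod_of_subset_of_one_le' (Finset.range_mono h) (fun i _ _ => ?_)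
  exact (prime41_spec i).1.one_lt.le

/-- A walk on pairwise distinct Gaussian primes with bounded steps cannot stay in the region
`|Im z| ^ 4 ≤ log₂ |Re z|`. -/
theorem no_walk_log (D : ℕ) (z : ℕ → GaussianInt) (hz : ∀ n, Prime (z n))
    (hinj : Function.Injective z) (hstep : ∀ n, (z (n + 1) - z n).norm ≤ (D : ℤ) ^ 2) :
    ¬ ∀ n, (z n).im.natAbs ^ 4 ≤ Nat.log 2 (z n).re.natAbs := by
  intro hreg
  obtain ⟨K0, hK0⟩ : ∃ K0 : ℕ, K0 = 54 * (D + 1) ^ 3 := ⟨_, rfl⟩
  obtain ⟨X0, hX0⟩ : ∃ X0 : ℕ, X0 = ∏ i ∈ Finset.range ((D + 1) * (2 * K0 + 1)), prime41 i :=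
    ⟨_, rfl⟩
  -- the walk eventually leaves the finite exceptional set
  have hfin : (z ⁻¹' {w : GaussianInt | w.norm ≤ (X0 : ℤ) ^ 2 + (K0 : ℤ) ^ 2}).Finite :=
    Set.Finite.preimage hinj.injOn (finite_norm_le _)
  obtain ⟨N, hN⟩ := hfin.bddAbove
  have htail : ∀ n, (X0 : ℤ) ^ 2 + (K0 : ℤ) ^ 2 < (z (N + 1 + n)).norm := by
    intro n
    by_contra hcon
    push Not at hcon
    have := hN (show N + 1 + n ∈ z ⁻¹' {w : GaussianInt | w.norm ≤ (X0 : ℤ) ^ 2 + (K0 : ℤ) ^ 2}
      from hcon)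
    omega
  refine no_walk_primorial D (fun n => z (N + 1 + n)) (fun n => hz _)
    (fun a b hab => by have := hinj hab; omega) (fun n => ?_) (fun n => ?_)
  · have := hstep (N + 1 + n)
    rwa [add_assoc] at this
  · show ((∏ i ∈ Finset.range ((D + 1) * (2 * (z (N + 1 + n)).im.natAbs + 1)), prime41 i : ℕ) : ℤ)
      ≤ |(z (N + 1 + n)).re|
    have h1 := hreg (N + 1 + n)
    have h2 := htail n
    rw [Zsqrtd.norm_def] at h2
    generalize z (N + 1 + n) = w at h1 h2
    rw [Int.abs_eq_natAbs]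
    norm_cast
    have hre : w.re * w.re = ((w.re.natAbs : ℕ) : ℤ) ^ 2 := by
      rw [Int.natCast_natAbs, sq_abs]; ring
    have him : w.im * w.im = ((w.im.natAbs : ℕ) : ℤ) ^ 2 := by
      rw [Int.natCast_natAbs, sq_abs]; ring
    have h3 : X0 ^ 2 + K0 ^ 2 < w.re.natAbs ^ 2 + w.im.natAbs ^ 2 := by
      have : (X0 : ℤ) ^ 2 + (K0 : ℤ) ^ 2 < ((w.re.natAbs : ℕ) : ℤ) ^ 2 + ((w.im.natAbs : ℕ) : ℤ) ^ 2 := by
        rw [← hre, ← him]; linarith
      exact_mod_cast this
    generalize w.re.natAbs = x at h1 h3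
    generalize w.im.natAbs = K at h1 h3
    rcases le_or_gt K0 K with hK | hK
    · -- high points: the logarithmic bound
      have hKpos : 54 ≤ K := by
        have : 1 ≤ (D + 1) ^ 3 := Nat.one_le_pow _ _ (by omega)
        omega
      have hx : x ≠ 0 := by
        rintro rfl
        have : K ^ 4 ≤ 0 := by simpa using h1
        have : 0 < K ^ 4 := by positivity
        omega
      have h4 : 2 ^ (K ^ 4) ≤ x := Nat.pow_le_of_le_log hx h1
      have h5 := primorial41_le ((D + 1) * (2 * K + 1))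
      have h6 : 2 * ((D + 1) * (2 * K + 1) + 2) ^ 3 ≤ K ^ 4 := by
        have h7 : (D + 1) * (2 * K + 1) + 2 ≤ 3 * (D + 1) * K := by nlinarith
        have h8 : ((D + 1) * (2 * K + 1) + 2) ^ 3 ≤ (3 * (D + 1) * K) ^ 3 :=
          Nat.pow_le_pow_left h7 3
        have h9 : 2 * (3 * (D + 1) * K) ^ 3 = K0 * K ^ 3 := by rw [hK0]; ring
        have h10 : K0 * K ^ 3 ≤ K * K ^ 3 := Nat.mul_le_mul_right _ hK
        have h11 : K * K ^ 3 = K ^ 4 := by ring
        omega
      have h12 : 2 ^ (2 * ((D + 1) * (2 * K + 1) + 2) ^ 3) ≤ 2 ^ (K ^ 4) :=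
        Nat.pow_le_pow_right (by norm_num) h6
      omega
    · -- low points: far out
      have h4 : X0 ≤ x := by
        by_contra hcon
        push Not at hcon
        have h5 : x ^ 2 < X0 ^ 2 := Nat.pow_lt_pow_left hcon (by norm_num)
        have h6 : K ^ 2 < K0 ^ 2 := Nat.pow_lt_pow_left hK (by norm_num)
        omega
      have h5 : ∏ i ∈ Finset.range ((D + 1) * (2 * K + 1)), prime41 i ≤ X0 := by
        rw [hX0]
        exact primorial41_mono (Nat.mul_le_mul_left _ (by omega))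
      omega

end Vale.Agent.Lib.P015
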