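import Mathlib
import Vale.Agent.Lib.P015.Lines
import Vale.Agent.Lib.P015.Boxes

/-!
# Disks free of Gaussian primes centred on an arbitrary straight line

For a line whose direction is a real multiple of a Gaussian integer the disks come from the
walls of `exists_wall` in rotated coordinates; for every other line they come from the boxes of
`exists_box`, one of whose centres lies within distance `1` of the line by Kronecker's theorem.
-/

namespace Vale.Agent.Lib.P015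

open ComplexConjugate

/-- Disks free of Gaussian primes centred on a line whose direction is a positive multiple of
a nonzero Gaussian integer. -/
theorem exists_disk_rat (p : ℂ) (w : GaussianInt) (hw : w ≠ 0) (lam : ℝ) (hlam : 0 < lam)
    (R T : ℝ) :
    ∃ t : ℝ, T ≤ t ∧ ∀ z : GaussianInt,
      ‖GaussianInt.toComplex z - (p + t * (lam * GaussianInt.toComplex w))‖ ≤ R →
        ¬ Prime z := by
  obtain ⟨hW1, hWn⟩ := norm_toNat_pos w hw
  obtain ⟨W, hW⟩ : ∃ W : ℕ, W = w.norm.toNat := ⟨_, rfl⟩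
  rw [← hW] at hW1 hWn
  obtain ⟨wc, hwc⟩ : ∃ wc : ℂ, wc = GaussianInt.toComplex w := ⟨_, rfl⟩
  rw [← hwc]
  have hnsq : Complex.normSq wc = (W : ℝ) := by
    rw [hwc, ← GaussianInt.intCast_real_norm, ← hWn]
    norm_cast
  have hWpos : (0 : ℝ) < (W : ℝ) := by exact_mod_cast hW1
  obtain ⟨ρ, hρ⟩ : ∃ ρ : ℕ, R * ‖wc‖ ≤ ρ := ⟨⌈R * ‖wc‖⌉₊, Nat.le_ceil _⟩
  obtain ⟨a, ha⟩ : ∃ a : ℝ, a = (p * conj wc).re := ⟨_, rfl⟩
  obtain ⟨h, hh⟩ : ∃ h : ℝ, h = (p * conj wc).im := ⟨_, rfl⟩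
  obtain ⟨K', hK'⟩ : ∃ K' : ℕ, (ρ : ℝ) + |h| ≤ K' := ⟨⌈(ρ : ℝ) + |h|⌉₊, Nat.le_ceil _⟩
  have hm : ∀ i, 1 < prime41 (i + W) := fun i => (prime41_spec _).1.one_lt
  obtain ⟨n, hn⟩ : ∃ n : ℕ, n = (2 * ρ + 1) * (2 * K' + 1) := ⟨_, rfl⟩
  obtain ⟨Q, hQ⟩ : ∃ Q : ℤ, Q = modProd (fun i => prime41 (i + W)) n := ⟨_, rfl⟩
  have hQpos : 0 < Q := by rw [hQ]; exact modProd_pos _ hm n
  obtain ⟨X, hX1, hX2⟩ : ∃ X : ℤ, (W : ℤ) * Q + 1 ≤ X ∧ a + T * (lam * W) ≤ (X : ℝ) := by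
    refine ⟨(W : ℤ) * Q + 1 + ⌈|a + T * (lam * W)|⌉₊, ?_, ?_⟩
    · have : (0 : ℤ) ≤ (⌈|a + T * (lam * W)|⌉₊ : ℤ) := by positivity
      linarith
    · have h1 := Nat.le_ceil (|a + T * (lam * W)|)
      have h2 := le_abs_self (a + T * (lam * W))
      have h3 : (0 : ℝ) ≤ (((W : ℤ) * Q + 1 : ℤ) : ℝ) := by
        have : (0 : ℤ) ≤ (W : ℤ) * Q + 1 := by positivity
        exact_mod_cast this
      push_cast at h3 ⊢
      linarith
  obtain ⟨x0, hx0, -, hblock⟩ := exists_wall (fun i => prime41 (i + W))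
    (fun i => sqrt41 (i + W)) hm (fun i => sqrt41_spec _)
    (fun i j hij => (Nat.coprime_primes (prime41_spec _).1 (prime41_spec _).1).2
      (fun e => hij (by have := prime41_injective e; omega))) (2 * ρ) K' X
  rw [← hn] at hblock
  have hlW : (0 : ℝ) < lam * W := by positivity
  refine ⟨((x0 : ℝ) + ρ - a) / (lam * W), ?_, ?_⟩
  · rw [le_div_iff₀ hlW]
    have h1 : (X : ℝ) ≤ (x0 : ℝ) := by exact_mod_cast hx0
    have h2 : (0 : ℝ) ≤ (ρ : ℝ) := by positivity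
    linarith
  · intro z hzd hzp
    obtain ⟨δ, hδ⟩ : ∃ δ : ℂ, δ = GaussianInt.toComplex z -
        (p + ((((x0 : ℝ) + ρ - a) / (lam * W) : ℝ) : ℂ) * (lam * wc)) := ⟨_, rfl⟩
    rw [← hδ] at hzd
    obtain ⟨v, hv⟩ : ∃ v : GaussianInt, v = z * star w := ⟨_, rfl⟩
    have hvc : GaussianInt.toComplex v =
        δ * conj wc + p * conj wc + (((x0 : ℝ) + ρ - a : ℝ) : ℂ) := by
      rw [hv, GaussianInt.toComplex_mul, GaussianInt.toComplex_star, ← hwc]
      have e1 : GaussianInt.toComplex z =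
          δ + (p + ((((x0 : ℝ) + ρ - a) / (lam * W) : ℝ) : ℂ) * (lam * wc)) := by
        rw [hδ]; ring
      have e2 : wc * conj wc = ((W : ℝ) : ℂ) := by rw [Complex.mul_conj, hnsq]
      have e3 : ((((x0 : ℝ) + ρ - a) / (lam * W) : ℝ) : ℂ) * (lam * wc) * conj wc =
          (((x0 : ℝ) + ρ - a : ℝ) : ℂ) := by
        rw [mul_assoc, mul_assoc, e2, ← Complex.ofReal_mul, ← Complex.ofReal_mul]
        congr 1
        field_simp
      rw [e1, add_mul, add_mul, e3]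
      ring
    have hre : ((v.re : ℤ) : ℝ) = (δ * conj wc).re + x0 + ρ := by
      rw [GaussianInt.intCast_re, hvc]
      simp only [Complex.add_re, Complex.ofReal_re]
      rw [← ha]; ring
    have him : ((v.im : ℤ) : ℝ) = (δ * conj wc).im + h := by
      rw [GaussianInt.intCast_im, hvc]
      simp only [Complex.add_im, Complex.ofReal_im]
      rw [← hh]; ring
    have hb : ‖δ * conj wc‖ ≤ ρ := by
      rw [norm_mul, Complex.norm_conj]
      exact le_trans (mul_le_mul_of_nonneg_right hzd (norm_nonneg _)) hρ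
    have hb1 := abs_le.1 (le_trans (Complex.abs_re_le_norm _) hb)
    have hb2 := abs_le.1 (le_trans (Complex.abs_im_le_norm _) hb)
    have hx1 : x0 ≤ v.re := by
      have : (x0 : ℝ) ≤ ((v.re : ℤ) : ℝ) := by rw [hre]; linarith [hb1.1]
      exact_mod_cast this
    have hx2 : v.re ≤ x0 + ((2 * ρ : ℕ) : ℤ) := by
      have : ((v.re : ℤ) : ℝ) ≤ (x0 : ℝ) + 2 * ρ := by rw [hre]; linarith [hb1.2]
      exact_mod_cast this
    have hy : |v.im| ≤ (K' : ℤ) := by
      have : |((v.im : ℤ) : ℝ)| ≤ (K' : ℝ) := by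
        rw [him, abs_le]
        have h9 := abs_le.1 (le_refl |h|)
        constructor <;> linarith [hb2.1, hb2.2, h9.1, h9.2]
      exact_mod_cast this
    obtain ⟨i, hi, hdvd⟩ := hblock v.re v.im hx1 hx2 hy
    have hnsw : (star w).norm = (W : ℤ) := by rw [Zsqrtd.norm_conj, hWn]
    have hnorm : v.re ^ 2 + v.im ^ 2 = z.norm * (W : ℤ) := by
      rw [hv, ← hnsw, ← Zsqrtd.norm_mul, Zsqrtd.norm_def]; ring
    have hdvd' : ((prime41 (i + W) : ℕ) : ℤ) ∣ z.norm * (W : ℤ) := by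
      rw [← hnorm]; exact hdvd
    have hp := (prime41_spec (i + W)).1
    have hgt := prime41_gt (i + W)
    have hcop : Nat.Coprime (prime41 (i + W)) W := by
      rw [Nat.Prime.coprime_iff_not_dvd hp]
      exact Nat.not_dvd_of_pos_of_lt (by omega) (by omega)
    have hcop' : IsCoprime ((prime41 (i + W) : ℕ) : ℤ) (W : ℤ) :=
      Nat.isCoprime_iff_coprime.2 hcop
    have h2 := norm_le_of_dvd_norm (prime41 (i + W)) hp.one_lt z hzp
      (hcop'.dvd_of_dvd_mul_right hdvd')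
    have h3 : ((prime41 (i + W) : ℕ) : ℤ) ≤ Q := by
      rw [hQ]; exact le_modProd (fun i => prime41 (i + W)) hm hi
    have h4 : (W : ℤ) * Q + 1 ≤ v.re := by linarith
    have hW1' : (1 : ℤ) ≤ (W : ℤ) := by exact_mod_cast hW1
    have h5 : (0 : ℤ) ≤ ((prime41 (i + W) : ℕ) : ℤ) := by positivity
    have h6 : 0 ≤ v.im ^ 2 := by positivity
    have h7 : ((prime41 (i + W) : ℕ) : ℤ) ^ 2 ≤ Q ^ 2 := pow_le_pow_left₀ h5 h3 2
    have h8 : ((W : ℤ) * Q + 1) ^ 2 ≤ v.re ^ 2 :=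
      pow_le_pow_left₀ (by positivity) h4 2
    have h9 : z.norm * (W : ℤ) ≤ Q ^ 2 * (W : ℤ) :=
      mul_le_mul_of_nonneg_right (le_trans h2 h7) (by positivity)
    have h10 : Q ^ 2 * (W : ℤ) ≤ Q ^ 2 * (W : ℤ) * (W : ℤ) :=
      le_mul_of_one_le_right (by positivity) hW1'
    have h11 : ((W : ℤ) * Q + 1) ^ 2 = Q ^ 2 * (W : ℤ) * (W : ℤ) + 2 * (W : ℤ) * Q + 1 := by
      ring
    have h12 : 0 < 2 * (W : ℤ) * Q := by positivity
    linarith

/-- Disks free of Gaussian primes centred on a line of irrational slope. -/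
theorem exists_disk_irr (p e : ℂ) (he : e.re ≠ 0) (hirr : Irrational (e.im / e.re))
    (R T : ℝ) :
    ∃ t : ℝ, T ≤ t ∧ ∀ z : GaussianInt,
      ‖GaussianInt.toComplex z - (p + t * e)‖ ≤ R → ¬ Prime z := by
  obtain ⟨α, hα⟩ : ∃ α : ℝ, α = e.im / e.re := ⟨_, rfl⟩
  rw [← hα] at hirr
  obtain ⟨R', hR'⟩ : ∃ R' : ℕ, R + 1 ≤ R' := ⟨⌈R + 1⌉₊, Nat.le_ceil _⟩
  have hm : ∀ i, 1 < prime41 i := fun i => (prime41_spec i).1.one_lt
  obtain ⟨n, hn⟩ : ∃ n : ℕ, n = (2 * R' + 1) * (2 * R' + 1) := ⟨_, rfl⟩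
  obtain ⟨u0, v0, hbox⟩ := exists_box prime41 hm
    (fun i j hij => (Nat.coprime_primes (prime41_spec i).1 (prime41_spec j).1).2
      (fun e => hij (prime41_injective e))) R'
  rw [← hn] at hbox
  obtain ⟨Q, hQ⟩ : ∃ Q : ℤ, Q = modProd prime41 n := ⟨_, rfl⟩
  rw [← hQ] at hbox
  have hQpos : 0 < Q := by rw [hQ]; exact modProd_pos _ hm n
  have hQR : (0 : ℝ) < (Q : ℝ) := by exact_mod_cast hQpos
  obtain ⟨β, hβ⟩ : ∃ β : ℝ, β = p.im - α * p.re := ⟨_, rfl⟩
  obtain ⟨γ, hγ⟩ : ∃ γ : ℝ, γ = ((v0 : ℝ) - α * u0 - β) / Q := ⟨_, rfl⟩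
  obtain ⟨σ, hσ1, hσ2⟩ : ∃ σ : ℤ, (σ = 1 ∨ σ = -1) ∧ 0 < (σ : ℝ) * e.re := by
    rcases lt_or_gt_of_ne he with hneg | hpos
    · exact ⟨-1, Or.inr rfl, by push_cast; linarith⟩
    · exact ⟨1, Or.inl rfl, by push_cast; linarith⟩
  have hσ0 : σ ≠ 0 := by rcases hσ1 with h | h <;> rw [h] <;> norm_num
  have hσsq : σ * σ = 1 := by rcases hσ1 with h | h <;> rw [h] <;> norm_num
  have hσR : (σ : ℝ) * (σ : ℝ) = 1 := by exact_mod_cast hσsq
  have hσR0 : (σ : ℝ) ≠ 0 := by exact_mod_cast hσ0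
  have hirr' : Irrational ((σ : ℝ) * α) := hirr.intCast_mul hσ0
  obtain ⟨B, hB1, hB2⟩ : ∃ B : ℤ, (R' : ℤ) + |u0| + 2 ≤ B ∧
      ((σ : ℝ) * p.re + T * ((σ : ℝ) * e.re) - σ * u0) / Q ≤ B := by
    refine ⟨(R' : ℤ) + |u0| + 2 +
      ⌈|((σ : ℝ) * p.re + T * ((σ : ℝ) * e.re) - σ * u0) / Q|⌉₊, ?_, ?_⟩
    · have : (0 : ℤ) ≤
          (⌈|((σ : ℝ) * p.re + T * ((σ : ℝ) * e.re) - σ * u0) / Q|⌉₊ : ℤ) := by positivity
      linarith
    · have h1 := Nat.le_ceil (|((σ : ℝ) * p.re + T * ((σ : ℝ) * e.re) - σ * u0) / Q|)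
      have h2 := le_abs_self (((σ : ℝ) * p.re + T * ((σ : ℝ) * e.re) - σ * u0) / Q)
      have h3 : (0 : ℝ) ≤ (R' : ℝ) + |(u0 : ℝ)| + 2 := by positivity
      push_cast
      linarith
  obtain ⟨i, j, hi, hij⟩ := kronecker ((σ : ℝ) * α) hirr' γ (1 / Q) (by positivity) B
  obtain ⟨x, hx⟩ : ∃ x : ℤ, x = u0 + Q * (σ * i) := ⟨_, rfl⟩
  obtain ⟨y, hy⟩ : ∃ y : ℤ, y = v0 + Q * (-j) := ⟨_, rfl⟩
  have hclose : |(y : ℝ) - α * x - β| < 1 := by
    have e1 : (y : ℝ) - α * x - β = -(Q : ℝ) * ((i : ℝ) * ((σ : ℝ) * α) + j - γ) := by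
      rw [hx, hy, hγ]; push_cast; field_simp; ring
    rw [e1, abs_mul, abs_neg, abs_of_pos hQR]
    have h1 := mul_lt_mul_of_pos_left hij hQR
    rwa [mul_one_div_cancel hQR.ne'] at h1
  -- the integer `σ * x` is large
  have hQi : Q * (B + 1) ≤ Q * i := by nlinarith
  have hσx : σ * x = σ * u0 + Q * i := by
    rw [hx]
    have : σ * (Q * (σ * i)) = (σ * σ) * (Q * i) := by ring
    rw [mul_add, this, hσsq, one_mul]
  have hσu : -|u0| ≤ σ * u0 := by
    rcases hσ1 with h | h <;> rw [h]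
    · linarith [neg_abs_le u0]
    · linarith [le_abs_self u0]
  have hbig : (R' : ℤ) + Q + 2 ≤ σ * x := by
    rw [hσx]
    have h1 : (1 : ℤ) ≤ Q := hQpos
    have h2 : (0 : ℤ) ≤ (R' : ℤ) + |u0| := by positivity
    nlinarith
  refine ⟨((x : ℝ) - p.re) / e.re, ?_, ?_⟩
  · have e2 : ((x : ℝ) - p.re) / e.re = ((σ : ℝ) * ((x : ℝ) - p.re)) / ((σ : ℝ) * e.re) := by
      field_simp
    rw [e2, le_div_iff₀ hσ2]
    have h1 : ((σ : ℝ) * p.re + T * ((σ : ℝ) * e.re) - σ * u0) ≤ (B : ℝ) * Q := by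
      rwa [div_le_iff₀ hQR] at hB2
    have h2 : ((σ * x : ℤ) : ℝ) = ((σ * u0 + Q * i : ℤ) : ℝ) := by rw [hσx]
    push_cast at h2
    have h3 : (Q : ℝ) * (B + 1) ≤ (Q : ℝ) * i := by exact_mod_cast hQi
    nlinarith
  · intro z hzd hzp
    obtain ⟨δ, hδ⟩ : ∃ δ : ℂ, δ = GaussianInt.toComplex z -
        (p + ((((x : ℝ) - p.re) / e.re : ℝ) : ℂ) * e) := ⟨_, rfl⟩
    rw [← hδ] at hzd
    have hre : ((z.re : ℤ) : ℝ) = δ.re + x := by
      rw [GaussianInt.intCast_re, hδ]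
      simp only [Complex.sub_re, Complex.add_re, Complex.mul_re, Complex.ofReal_re,
        Complex.ofReal_im, zero_mul, sub_zero]
      field_simp
      ring
    have him : ((z.im : ℤ) : ℝ) = δ.im + (α * x + β) := by
      rw [GaussianInt.intCast_im, hδ, hβ, hα]
      simp only [Complex.sub_im, Complex.add_im, Complex.mul_im, Complex.ofReal_re,
        Complex.ofReal_im, zero_mul, add_zero]
      field_simp
      ring
    have hd1 := abs_le.1 (le_trans (Complex.abs_re_le_norm δ) hzd)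
    have hd2 := abs_le.1 (le_trans (Complex.abs_im_le_norm δ) hzd)
    have hc := abs_lt.1 hclose
    have ha : |z.re - x| ≤ (R' : ℤ) := by
      have : |((z.re - x : ℤ) : ℝ)| ≤ (R' : ℝ) := by
        push_cast
        rw [hre, abs_le]
        constructor <;> linarith [hd1.1, hd1.2]
      exact_mod_cast this
    have hb : |z.im - y| ≤ (R' : ℤ) := by
      have : |((z.im - y : ℤ) : ℝ)| ≤ (R' : ℝ) := by
        push_cast
        rw [him, abs_le]
        constructor <;> linarith [hd2.1, hd2.2, hc.1, hc.2]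
      exact_mod_cast this
    obtain ⟨k, hk, hdr, hdi⟩ := hbox (σ * i) (-j) (z.re - x) (z.im - y) ha hb
    have hdr' : ((prime41 k : ℕ) : ℤ) ∣ z.re := by
      have e : u0 + Q * (σ * i) + (z.re - x) = z.re := by rw [hx]; ring
      rwa [e] at hdr
    have hdi' : ((prime41 k : ℕ) : ℤ) ∣ z.im := by
      have e : v0 + Q * -j + (z.im - y) = z.im := by rw [hy]; ring
      rwa [e] at hdi
    have hnorm : z.norm = z.re ^ 2 + z.im ^ 2 := by rw [Zsqrtd.norm_def]; ring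
    have hdn : ((prime41 k : ℕ) : ℤ) ∣ z.norm := by
      rw [hnorm]
      exact dvd_add (Dvd.dvd.pow hdr' (by norm_num)) (Dvd.dvd.pow hdi' (by norm_num))
    have h2 := norm_le_of_dvd_norm (prime41 k) (hm k) z hzp hdn
    have h3 : ((prime41 k : ℕ) : ℤ) ≤ Q := by rw [hQ]; exact le_modProd prime41 hm hk
    have h5 : (0 : ℤ) ≤ ((prime41 k : ℕ) : ℤ) := by positivity
    have hσz : Q + 2 ≤ σ * z.re := by
      have e : σ * z.re = σ * x + σ * (z.re - x) := by ring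
      have h6 : -|z.re - x| ≤ σ * (z.re - x) := by
        rcases hσ1 with h | h <;> rw [h]
        · linarith [neg_abs_le (z.re - x)]
        · linarith [le_abs_self (z.re - x)]
      linarith
    have hsq : z.re ^ 2 = (σ * z.re) ^ 2 := by
      rw [mul_pow, sq σ, hσsq, one_mul]
    have h7 : (Q + 2) ^ 2 ≤ z.re ^ 2 := by
      rw [hsq]; exact pow_le_pow_left₀ (by positivity) hσz 2
    have h8 : 0 ≤ z.im ^ 2 := by positivity
    have h9 : ((prime41 k : ℕ) : ℤ) ^ 2 ≤ Q ^ 2 := pow_le_pow_left₀ h5 h3 2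
    have h10 : (Q + 2) ^ 2 = Q ^ 2 + 4 * Q + 4 := by ring
    linarith

/-- A direction which is not a real multiple of a Gaussian integer has nonzero real part and
irrational slope. -/
theorem irr_of_not_rat (e : ℂ)
    (hrat : ¬ ∃ (w : GaussianInt) (lam : ℝ), w ≠ 0 ∧ e = lam * GaussianInt.toComplex w) :
    e.re ≠ 0 ∧ Irrational (e.im / e.re) := by
  push Not at hrat
  have he1 : e.re ≠ 0 := by
    intro h0
    refine hrat ⟨0, 1⟩ e.im ?_ ?_
    · intro h
      have := congrArg Zsqrtd.im h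
      simp at this
    · apply Complex.ext <;> simp [GaussianInt.toComplex_def, h0]
  refine ⟨he1, ?_⟩
  rw [irrational_iff_ne_rational]
  intro a b hb hab
  refine hrat ⟨b, a⟩ (e.re / b) ?_ ?_
  · intro h
    have := congrArg Zsqrtd.re h
    simp at this
    exact hb this
  · have hb' : (b : ℝ) ≠ 0 := by exact_mod_cast hb
    have h7 : e.im = e.re * a / b := by
      field_simp at hab
      field_simp
      linarith
    apply Complex.ext
    · simp [GaussianInt.toComplex_def]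
      field_simp
    · simp [GaussianInt.toComplex_def]
      rw [h7]; field_simp

/-- Every straight line `{p + t * e : t ∈ ℝ}` (`e ≠ 0`) carries, arbitrarily far out in the
direction `e`, centres of disks of any prescribed radius which contain no Gaussian prime. -/
theorem exists_disk (p e : ℂ) (he : e ≠ 0) (R T : ℝ) :
    ∃ t : ℝ, T ≤ t ∧ ∀ z : GaussianInt,
      ‖GaussianInt.toComplex z - (p + t * e)‖ ≤ R → ¬ Prime z := by
  by_cases hrat : ∃ (w : GaussianInt) (lam : ℝ), w ≠ 0 ∧ e = lam * GaussianInt.toComplex w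
  · obtain ⟨w, lam, hw, hew⟩ := hrat
    have hlam : lam ≠ 0 := by
      rintro rfl
      apply he
      rw [hew]; simp
    rcases lt_or_gt_of_ne hlam with hneg | hpos
    · obtain ⟨t, ht, hd⟩ := exists_disk_rat p (-w) (neg_ne_zero.2 hw) (-lam) (by linarith) R T
      refine ⟨t, ht, fun z hz => hd z ?_⟩
      have e1 : e = ((-lam : ℝ) : ℂ) * GaussianInt.toComplex (-w) := by
        rw [hew, GaussianInt.toComplex_neg]; push_cast; ring
      rw [← e1]
      exact hz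
    · obtain ⟨t, ht, hd⟩ := exists_disk_rat p w hw lam hpos R T
      refine ⟨t, ht, fun z hz => hd z ?_⟩
      rw [← hew]
      exact hz
  · obtain ⟨he1, hirr⟩ := irr_of_not_rat e hrat
    exact exists_disk_irr p e he1 hirr R T

end Vale.Agent.Lib.P015
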