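import Vale.Agent.Lib.P015.KingData

/-!
# The bit-parallel check of the king-move barrier modulo 672945: definitions

Columns are folded by the reflection `x ↦ -x`, so only `0 ≤ x ≤ 336472` is stored.
Bit `x` of a colouring row says whether `(x, y)` lies below the barrier; bit `x` of a
`bad` row says that `x ^ 2 + y ^ 2` is not coprime to `672945 = 3 * 5 * 7 * 13 * 17 * 29`.
All functions are written with the raw operations on natural numbers, which the kernel
evaluates with arbitrary-precision arithmetic.
-/

namespace Vale.Agent.Lib.P015

/-- The ones of the `i`-th interval of the group `n`, relative to the base `a0`. -/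
def piece (n a0 i : Nat) : Nat :=
  Nat.shiftLeft
    (Nat.sub (Nat.shiftLeft 1 (Nat.sub (Nat.land (Nat.shiftRight n (38 * i + 19)) 524287)
      (Nat.land (Nat.shiftRight n (38 * i)) 524287))) 1)
    (Nat.sub (Nat.land (Nat.shiftRight n (38 * i)) 524287) a0)

/-- The eight intervals of the group `n`, relative to the base `a0`. -/
def win8 (n a0 : Nat) : Nat :=
  Nat.lor (Nat.lor (Nat.lor (piece n a0 0) (piece n a0 1)) (Nat.lor (piece n a0 2) (piece n a0 3)))
    (Nat.lor (Nat.lor (piece n a0 4) (piece n a0 5)) (Nat.lor (piece n a0 6) (piece n a0 7)))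

/-- Decode the groups of a packed row into a bit mask. -/
def decG : Nat → Nat → Nat → Nat
  | 0, _, tot => tot
  | f + 1, n, tot =>
    decG f (Nat.shiftRight n 304)
      (Nat.lor tot (Nat.shiftLeft (win8 n (Nat.land n 524287)) (Nat.land n 524287)))

/-- The colouring mask of a packed row. -/
def decB (v : Nat) : Nat := decG (Nat.land v 1023) (Nat.shiftRight v 10) 0

/-- `n` concatenated copies of the `p`-bit pattern `pat`. -/
def per (p pat n : Nat) : Nat :=
  Nat.mul pat (Nat.div (Nat.sub (Nat.pow 2 (Nat.mul p n)) 1) (Nat.sub (Nat.pow 2 p) 1))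

/-- Bits `x < p * n` with `p ∣ x ^ 2 + y ^ 2`, where the table `T` packs, for every residue
`yr` of `y`, the `p`-bit pattern of the residues `a` with `p ∣ a ^ 2 + yr ^ 2`. -/
def badP (p n T y : Nat) : Nat :=
  per p (Nat.land (Nat.shiftRight T (Nat.mul p (Nat.mod y p))) (Nat.sub (Nat.pow 2 p) 1)) n

/-- The pattern table of the prime `3`. -/
def patT3 : Nat := 1

/-- The pattern table of the prime `5`. -/
def patT5 : Nat := 13191553

/-- The pattern table of the prime `7`. -/
def patT7 : Nat := 1

/-- The pattern table of the prime `13`. -/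
def patT13 : Nat := 26318539449548346606791085683279578362344515043329

/-- The pattern table of the prime `17`. -/
def patT17 : Nat :=
  62286865822973312499670121712468856679713254281543933244550329204543171258683228160001

/-- The pattern table of the prime `29`. -/
def patT29 : Nat :=
  3691734561748388707046369026139341242053908470231070961751985135551451717202890093027202548163803928011430862554879878030745877853561616626336972372600364033774431746249422537351170173047186885778373299003342720747689725793879953036686262978455011329

/-- Bits `x ≤ 336472` such that `x ^ 2 + y ^ 2` is not coprime to `672945`. -/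
def bad (y : Nat) : Nat :=
  Nat.lor (Nat.lor (Nat.lor (badP 3 112158 patT3 y) (badP 5 67295 patT5 y))
    (Nat.lor (badP 7 48068 patT7 y) (badP 13 25883 patT13 y)))
    (Nat.lor (badP 17 19793 patT17 y) (badP 29 11603 patT29 y))

/-- Every bit of `X` is a bit of `Y`. -/
def subB (X Y : Nat) : Bool := Nat.beq (Nat.lor X Y) Y

/-- The bits `x < 336472`. -/
def fullH : Nat := Nat.sub (Nat.pow 2 336472) 1

/-- The bits `x ≤ 336472`. -/
def fullH1 : Nat := Nat.sub (Nat.pow 2 336473) 1

/-- Horizontal steps inside one row do not cross the colouring. -/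
def rowOK (B D : Nat) : Bool :=
  subB (Nat.land (Nat.xor B (Nat.shiftRight B 1)) fullH) (Nat.lor D (Nat.shiftRight D 1))

/-- Steps inside and between two consecutive rows do not cross the colouring. -/
def pairOK (a b : Nat × Nat) : Bool :=
  rowOK a.1 a.2 && rowOK b.1 b.2 &&
  subB (Nat.land (Nat.xor a.1 b.1) fullH1) (Nat.lor a.2 b.2) &&
  subB (Nat.land (Nat.xor a.1 (Nat.shiftRight b.1 1)) fullH) (Nat.lor a.2 (Nat.shiftRight b.2 1)) &&
  subB (Nat.land (Nat.xor (Nat.shiftRight a.1 1) b.1) fullH) (Nat.lor (Nat.shiftRight a.2 1) b.2)

/-- All consecutive pairs of rows are fine. -/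
def chain : List (Nat × Nat) → Bool
  | a :: b :: l => pairOK a b && chain (b :: l)
  | _ => true

/-- The rows: colouring mask and `bad` mask. -/
def mkRows : List Nat → Nat → List (Nat × Nat)
  | [], _ => []
  | v :: vs, y => (decB v, bad y) :: mkRows vs (y + 1)

/-- The rows `s ≤ j ≤ s + n` of the strip (row `j` sits at height `655 + j`). -/
def chunkRows (s n : Nat) : List (Nat × Nat) :=
  mkRows ((kingData.drop s).take (n + 1)) (655 + s)

end Vale.Agent.Lib.P015
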