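import Mathlib
import Vale.Agent.Lib.P015.KingDefs

/-!
# Bit-level facts about the masks used by the king-move barrier check
-/

namespace Vale.Agent.Lib.P015

theorem subB_spec {X Y : ℕ} (h : subB X Y = true) (i : ℕ) (hi : X.testBit i = true) :
    Y.testBit i = true := by
  have h1 : X ||| Y = Y := Nat.eq_of_beq_eq_true h
  have h2 : (X ||| Y).testBit i = Y.testBit i := by rw [h1]
  rw [Nat.testBit_or, hi] at h2
  simpa using h2.symm

/-- The number whose bits are set exactly at the multiples of `p` below `p * n`. -/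
def geo (p : ℕ) : ℕ → ℕ
  | 0 => 0
  | n + 1 => 2 ^ p * geo p n + 1

theorem geo_mul (p n : ℕ) : (2 ^ p - 1) * geo p n + 1 = 2 ^ (p * n) := by
  obtain ⟨q, hq⟩ : ∃ q, 2 ^ p = q + 1 := ⟨2 ^ p - 1, by have := Nat.one_le_two_pow (n := p); omega⟩
  induction n with
  | zero => simp [geo]
  | succ n ih =>
    have e : p * (n + 1) = p * n + p := by ring
    rw [e, pow_add, ← ih, geo, hq]
    simp only [Nat.add_sub_cancel]
    ring

theorem geo_eq (p n : ℕ) (hp : 0 < p) : (2 ^ (p * n) - 1) / (2 ^ p - 1) = geo p n := by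
  have h1 := geo_mul p n
  have h2 : 2 ^ (p * n) - 1 = (2 ^ p - 1) * geo p n := by omega
  have h3 : 0 < 2 ^ p - 1 := by
    have : 2 ^ 1 ≤ 2 ^ p := Nat.pow_le_pow_right (by norm_num) hp
    omega
  rw [h2, Nat.mul_div_cancel_left _ h3]

theorem testBit_mul_geo (p pat : ℕ) (hpat : pat < 2 ^ p) (n x : ℕ) :
    (pat * geo p n).testBit x = (decide (x < p * n) && pat.testBit (x % p)) := by
  induction n generalizing x with
  | zero => simp [geo]
  | succ n ih =>
    have e : pat * geo p (n + 1) = 2 ^ p * (pat * geo p n) + pat := by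
      simp only [geo]; ring
    rw [e, Nat.testBit_two_pow_mul_add _ hpat]
    by_cases hx : x < p
    · have h1 : x < p * (n + 1) := by nlinarith
      simp [hx, h1, Nat.mod_eq_of_lt hx]
    · have hx' : p ≤ x := Nat.le_of_not_lt hx
      rw [if_neg hx, ih]
      have h1 : (x - p) % p = x % p := by
        conv_rhs => rw [← Nat.sub_add_cancel hx', Nat.add_mod_right]
      have h2 : (x - p < p * n) ↔ (x < p * (n + 1)) := by
        rw [Nat.mul_succ]; omega
      rw [h1]
      simp only [h2]

theorem testBit_per (p pat n : ℕ) (hp : 0 < p) (hpat : pat < 2 ^ p) (x : ℕ) :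
    (per p pat n).testBit x = (decide (x < p * n) && pat.testBit (x % p)) := by
  have e : per p pat n = pat * ((2 ^ (p * n) - 1) / (2 ^ p - 1)) := rfl
  rw [e, geo_eq p n hp, testBit_mul_geo p pat hpat]

/-- The table `T` lists, for every residue `yr`, the residues `a` with `p ∣ a ^ 2 + yr ^ 2`. -/
def TableOK (p T : ℕ) : Prop :=
  ∀ yr, yr < p → ∀ a, a < p → (T >>> (p * yr)).testBit a = decide ((a * a + yr * yr) % p = 0)

theorem testBit_badP (p n T : ℕ) (hp : 0 < p) (hT : TableOK p T) (y x : ℕ) (hx : x < p * n) :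
    (badP p n T y).testBit x = decide (p ∣ x * x + y * y) := by
  have e : badP p n T y = per p ((T >>> (p * (y % p))) &&& (2 ^ p - 1)) n := rfl
  have hlt : (T >>> (p * (y % p))) &&& (2 ^ p - 1) < 2 ^ p :=
    Nat.and_lt_two_pow _ (by have := Nat.one_le_two_pow (n := p); omega)
  rw [e, testBit_per p _ n hp hlt, Nat.testBit_and, Nat.testBit_two_pow_sub_one,
    hT (y % p) (Nat.mod_lt _ hp) (x % p) (Nat.mod_lt _ hp)]
  have h1 : ((x % p) * (x % p) + (y % p) * (y % p)) % p = (x * x + y * y) % p := by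
    simp [Nat.add_mod, Nat.mul_mod]
  rw [h1]
  simp [hx, Nat.mod_lt _ hp, Nat.dvd_iff_mod_eq_zero]

theorem tableOK3 : TableOK 3 patT3 := by unfold TableOK; decide
theorem tableOK5 : TableOK 5 patT5 := by unfold TableOK; decide
theorem tableOK7 : TableOK 7 patT7 := by unfold TableOK; decide
theorem tableOK13 : TableOK 13 patT13 := by unfold TableOK; decide +kernel
theorem tableOK17 : TableOK 17 patT17 := by unfold TableOK; decide +kernel
theorem tableOK29 : TableOK 29 patT29 := by unfold TableOK; decide +kernel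

theorem gcd_672945 (N : ℕ) :
    Nat.gcd N 672945 = 1 ↔
      ¬ 3 ∣ N ∧ ¬ 5 ∣ N ∧ ¬ 7 ∣ N ∧ ¬ 13 ∣ N ∧ ¬ 17 ∣ N ∧ ¬ 29 ∣ N := by
  have e : (672945 : ℕ) = 3 * (5 * (7 * (13 * (17 * 29)))) := by norm_num
  have hc : ∀ p : ℕ, p.Prime → (Nat.Coprime N p ↔ ¬ p ∣ N) := fun p hp => by
    rw [Nat.coprime_comm]; exact hp.coprime_iff_not_dvd
  rw [e]
  change Nat.Coprime N _ ↔ _
  rw [Nat.coprime_mul_iff_right, Nat.coprime_mul_iff_right, Nat.coprime_mul_iff_right,
    Nat.coprime_mul_iff_right, Nat.coprime_mul_iff_right,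
    hc 3 (by norm_num), hc 5 (by norm_num), hc 7 (by norm_num), hc 13 (by norm_num),
    hc 17 (by norm_num), hc 29 (by norm_num)]

/-- Bit `x` of `bad y` says that `x ^ 2 + y ^ 2` is not coprime to `672945`. -/
theorem testBit_bad (y x : ℕ) (hx : x ≤ 336472) :
    (bad y).testBit x = false ↔ Nat.gcd (x * x + y * y) 672945 = 1 := by
  have e : bad y = ((badP 3 112158 patT3 y ||| badP 5 67295 patT5 y) |||
      (badP 7 48068 patT7 y ||| badP 13 25883 patT13 y)) |||
      (badP 17 19793 patT17 y ||| badP 29 11603 patT29 y) := rfl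
  rw [e, gcd_672945]
  simp only [Nat.testBit_or]
  rw [testBit_badP 3 _ _ (by norm_num) tableOK3 y x (by omega),
    testBit_badP 5 _ _ (by norm_num) tableOK5 y x (by omega),
    testBit_badP 7 _ _ (by norm_num) tableOK7 y x (by omega),
    testBit_badP 13 _ _ (by norm_num) tableOK13 y x (by omega),
    testBit_badP 17 _ _ (by norm_num) tableOK17 y x (by omega),
    testBit_badP 29 _ _ (by norm_num) tableOK29 y x (by omega)]
  simp only [Bool.or_eq_false_iff, decide_eq_false_iff_not]
  tauto

theorem fullH_eq : fullH = 2 ^ 336472 - 1 := by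
  unfold fullH; rw [Nat.pow_eq, Nat.sub_eq]

theorem fullH1_eq : fullH1 = 2 ^ 336473 - 1 := by
  unfold fullH1; rw [Nat.pow_eq, Nat.sub_eq]

theorem testBit_fullH (x : ℕ) : fullH.testBit x = decide (x < 336472) := by
  rw [fullH_eq, Nat.testBit_two_pow_sub_one]

theorem testBit_fullH1 (x : ℕ) : fullH1.testBit x = decide (x < 336473) := by
  rw [fullH1_eq, Nat.testBit_two_pow_sub_one]

theorem rowOK_eq (B D : ℕ) :
    rowOK B D = subB ((B ^^^ (B >>> 1)) &&& fullH) (D ||| (D >>> 1)) := rfl

theorem pairOK_eq (a b : ℕ × ℕ) :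
    pairOK a b = (rowOK a.1 a.2 && rowOK b.1 b.2 &&
      subB ((a.1 ^^^ b.1) &&& fullH1) (a.2 ||| b.2) &&
      subB ((a.1 ^^^ (b.1 >>> 1)) &&& fullH) (a.2 ||| (b.2 >>> 1)) &&
      subB (((a.1 >>> 1) ^^^ b.1) &&& fullH) ((a.2 >>> 1) ||| b.2)) := rfl

/-- What `rowOK` says about the bits. -/
theorem rowOK_spec {B D : ℕ} (h : rowOK B D = true) (x : ℕ) (hx : x < 336472)
    (hd0 : D.testBit x = false) (hd1 : D.testBit (x + 1) = false) :
    B.testBit x = B.testBit (x + 1) := by
  rw [rowOK_eq] at h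
  by_contra hne
  have hX : (((B ^^^ (B >>> 1)) &&& fullH)).testBit x = true := by
    rw [Nat.testBit_and, Nat.testBit_xor, Nat.testBit_shiftRight, testBit_fullH,
      Nat.add_comm 1 x]
    simp only [hx, decide_true, Bool.and_true]
    cases hb0 : B.testBit x <;> cases hb1 : B.testBit (x + 1) <;> simp_all
  have hY := subB_spec h x hX
  rw [Nat.testBit_or, Nat.testBit_shiftRight, Nat.add_comm 1 x, hd0, hd1] at hY
  exact absurd hY (by decide)

/-- What `pairOK` says about the bits. -/
theorem pairOK_spec {a b : ℕ × ℕ} (h : pairOK a b = true) :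
    rowOK a.1 a.2 = true ∧ rowOK b.1 b.2 = true ∧
    (∀ x, x ≤ 336472 → a.2.testBit x = false → b.2.testBit x = false →
      a.1.testBit x = b.1.testBit x) ∧
    (∀ x, x < 336472 → a.2.testBit x = false → b.2.testBit (x + 1) = false →
      a.1.testBit x = b.1.testBit (x + 1)) ∧
    (∀ x, x < 336472 → a.2.testBit (x + 1) = false → b.2.testBit x = false →
      a.1.testBit (x + 1) = b.1.testBit x) := by
  rw [pairOK_eq] at h
  simp only [Bool.and_eq_true] at h
  obtain ⟨⟨⟨⟨h1, h2⟩, h3⟩, h4⟩, h5⟩ := h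
  refine ⟨h1, h2, ?_, ?_, ?_⟩
  · intro x hx hd0 hd1
    by_contra hne
    have hX : ((a.1 ^^^ b.1) &&& fullH1).testBit x = true := by
      rw [Nat.testBit_and, Nat.testBit_xor, testBit_fullH1]
      have : x < 336473 := by omega
      simp only [this, decide_true, Bool.and_true]
      cases hb0 : a.1.testBit x <;> cases hb1 : b.1.testBit x <;> simp_all
    have hY := subB_spec h3 x hX
    rw [Nat.testBit_or, hd0, hd1] at hY
    exact absurd hY (by decide)
  · intro x hx hd0 hd1
    by_contra hne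
    have hX : ((a.1 ^^^ (b.1 >>> 1)) &&& fullH).testBit x = true := by
      rw [Nat.testBit_and, Nat.testBit_xor, Nat.testBit_shiftRight, testBit_fullH,
        Nat.add_comm 1 x]
      simp only [hx, decide_true, Bool.and_true]
      cases hb0 : a.1.testBit x <;> cases hb1 : b.1.testBit (x + 1) <;> simp_all
    have hY := subB_spec h4 x hX
    rw [Nat.testBit_or, Nat.testBit_shiftRight, Nat.add_comm 1 x, hd0, hd1] at hY
    exact absurd hY (by decide)
  · intro x hx hd0 hd1
    by_contra hne
    have hX : (((a.1 >>> 1) ^^^ b.1) &&& fullH).testBit x = true := by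
      rw [Nat.testBit_and, Nat.testBit_xor, Nat.testBit_shiftRight, testBit_fullH,
        Nat.add_comm 1 x]
      simp only [hx, decide_true, Bool.and_true]
      cases hb0 : a.1.testBit (x + 1) <;> cases hb1 : b.1.testBit x <;> simp_all
    have hY := subB_spec h5 x hX
    rw [Nat.testBit_or, Nat.testBit_shiftRight, Nat.add_comm 1 x, hd0, hd1] at hY
    exact absurd hY (by decide)

/-- What `chain` says about consecutive rows. -/
theorem chain_spec : ∀ (l : List ℕ) (y : ℕ), chain (mkRows l y) = true →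
    ∀ i, i + 1 < l.length →
      pairOK (decB (l.getD i 0), bad (y + i)) (decB (l.getD (i + 1) 0), bad (y + i + 1)) = true
  | [], _, _, i, hi => by simp at hi
  | [_], _, _, i, hi => by simp at hi
  | v :: w :: l, y, h, i, hi => by
    have h' : (pairOK (decB v, bad y) (decB w, bad (y + 1)) &&
        chain (mkRows (w :: l) (y + 1))) = true := h
    rw [Bool.and_eq_true] at h'
    cases i with
    | zero => simpa using h'.1
    | succ i =>
      have ih := chain_spec (w :: l) (y + 1) h'.2 i (by simpa using hi)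
      have e1 : y + (i + 1) = y + 1 + i := by ring
      have e2 : y + (i + 1) + 1 = y + 1 + i + 1 := by ring
      rw [List.getD_cons_succ, List.getD_cons_succ, e1]
      exact ih

end Vale.Agent.Lib.P015
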