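import Vale.Agent.Lib.P015.KingDefs

/-! Kernel-checked chunks of the king-move barrier modulo 672945 (part 0). -/

namespace Vale.Agent.Lib.P015

theorem kingChunk0 : chain (chunkRows 0 50) = true := by decide +kernel

theorem kingChunk1 : chain (chunkRows 50 50) = true := by decide +kernel

theorem kingChunk2 : chain (chunkRows 100 50) = true := by decide +kernel

theorem kingChunk3 : chain (chunkRows 150 50) = true := by decide +kernel

end Vale.Agent.Lib.P015
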