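import Vale.Agent.Lib.P015.KingDefs
import Vale.Agent.Lib.P015.KingCk0

/-! Kernel-checked chunks of the king-move barrier modulo 672945 (part 1). -/

namespace Vale.Agent.Lib.P015

theorem kingChunk4 : chain (chunkRows 200 50) = true := by decide +kernel

theorem kingChunk5 : chain (chunkRows 250 50) = true := by decide +kernel

theorem kingChunk6 : chain (chunkRows 300 50) = true := by decide +kernel

theorem kingChunk7 : chain (chunkRows 350 50) = true := by decide +kernel

end Vale.Agent.Lib.P015
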