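import Vale.Agent.Lib.P015.KingDefs
import Vale.Agent.Lib.P015.KingCk1

/-! Kernel-checked chunks of the king-move barrier modulo 672945 (part 2). -/

namespace Vale.Agent.Lib.P015

theorem kingChunk8 : chain (chunkRows 400 50) = true := by decide +kernel

theorem kingChunk9 : chain (chunkRows 450 50) = true := by decide +kernel

theorem kingChunk10 : chain (chunkRows 500 50) = true := by decide +kernel

theorem kingChunk11 : chain (chunkRows 550 50) = true := by decide +kernel

end Vale.Agent.Lib.P015
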