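import Vale.Agent.Lib.P015.KingDefs
import Vale.Agent.Lib.P015.KingCk2

/-! Kernel-checked chunks of the king-move barrier modulo 672945 (part 3). -/

namespace Vale.Agent.Lib.P015

theorem kingChunk12 : chain (chunkRows 600 50) = true := by decide +kernel

theorem kingChunk13 : chain (chunkRows 650 50) = true := by decide +kernel

theorem kingChunk14 : chain (chunkRows 700 50) = true := by decide +kernel

theorem kingChunk15 : chain (chunkRows 750 50) = true := by decide +kernel

end Vale.Agent.Lib.P015
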