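import Vale.Agent.Lib.P015.KingDefs
import Vale.Agent.Lib.P015.KingCk3

/-! Kernel-checked chunks of the king-move barrier modulo 672945 (part 4). -/

namespace Vale.Agent.Lib.P015

theorem kingChunk16 : chain (chunkRows 800 50) = true := by decide +kernel

theorem kingChunk17 : chain (chunkRows 850 50) = true := by decide +kernel

theorem kingChunk18 : chain (chunkRows 900 50) = true := by decide +kernel

theorem kingChunk19 : chain (chunkRows 950 50) = true := by decide +kernel

end Vale.Agent.Lib.P015
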