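import Vale.Agent.Lib.P015.KingDefs
import Vale.Agent.Lib.P015.KingCk4

/-! Kernel-checked chunks of the king-move barrier modulo 672945 (part 5). -/

namespace Vale.Agent.Lib.P015

theorem kingChunk20 : chain (chunkRows 1000 50) = true := by decide +kernel

theorem kingChunk21 : chain (chunkRows 1050 50) = true := by decide +kernel

theorem kingChunk22 : chain (chunkRows 1100 50) = true := by decide +kernel

theorem kingChunk23 : chain (chunkRows 1150 50) = true := by decide +kernel

end Vale.Agent.Lib.P015
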