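import Vale.Agent.Lib.P015.KingDefs
import Vale.Agent.Lib.P015.KingCk5

/-! Kernel-checked chunks of the king-move barrier modulo 672945 (part 6). -/

namespace Vale.Agent.Lib.P015

theorem kingChunk24 : chain (chunkRows 1200 50) = true := by decide +kernel

theorem kingChunk25 : chain (chunkRows 1250 50) = true := by decide +kernel

theorem kingChunk26 : chain (chunkRows 1300 50) = true := by decide +kernel

theorem kingChunk27 : chain (chunkRows 1350 50) = true := by decide +kernel

end Vale.Agent.Lib.P015
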