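import Vale.Agent.Lib.P015.KingDefs
import Vale.Agent.Lib.P015.KingCk6

/-! Kernel-checked chunks of the king-move barrier modulo 672945 (part 7). -/

namespace Vale.Agent.Lib.P015

theorem kingChunk28 : chain (chunkRows 1400 50) = true := by decide +kernel

theorem kingChunk29 : chain (chunkRows 1450 50) = true := by decide +kernel

theorem kingChunk30 : chain (chunkRows 1500 50) = true := by decide +kernel

theorem kingChunk31 : chain (chunkRows 1550 50) = true := by decide +kernel

end Vale.Agent.Lib.P015
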