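import Vale.Agent.Lib.P015.KingDefs
import Vale.Agent.Lib.P015.KingCk7

/-! Kernel-checked chunks of the king-move barrier modulo 672945 (part 8). -/

namespace Vale.Agent.Lib.P015

theorem kingChunk32 : chain (chunkRows 1600 50) = true := by decide +kernel

theorem kingChunk33 : chain (chunkRows 1650 50) = true := by decide +kernel

theorem kingChunk34 : chain (chunkRows 1700 50) = true := by decide +kernel

theorem kingChunk35 : chain (chunkRows 1750 50) = true := by decide +kernel

end Vale.Agent.Lib.P015
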