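import Vale.Agent.Lib.P015.KingDefs
import Vale.Agent.Lib.P015.KingCk8

/-! Kernel-checked chunks of the king-move barrier modulo 672945 (part 9). -/

namespace Vale.Agent.Lib.P015

theorem kingChunk36 : chain (chunkRows 1800 50) = true := by decide +kernel

theorem kingChunk37 : chain (chunkRows 1850 50) = true := by decide +kernel

theorem kingChunk38 : chain (chunkRows 1900 50) = true := by decide +kernel

theorem kingChunk39 : chain (chunkRows 1950 20) = true := by decide +kernel

theorem kingData_length : kingData.length = 1971 := by decide +kernel

theorem kingBottom : subB fullH1 (decB (kingData.getD 0 0) ||| bad 655) = true := by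
  decide +kernel

theorem kingTop :
    subB (decB (kingData.getD 1970 0) &&& fullH1) (bad (655 + 1970)) = true := by
  decide +kernel

end Vale.Agent.Lib.P015
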