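import Mathlib
import Vale.Agent.Lib.P015.Barrier
import Vale.Agent.Lib.P015.Cert195
import Vale.Agent.Lib.P015.KingBits
import Vale.Agent.Lib.P015.KingCk9

/-!
# The king-move barrier modulo 672945

The lattice points `(x, y)` with `gcd (x ^ 2 + y ^ 2, 672945) = 1` have only finite
components under the eight king steps.  The barrier lives in the rows `655 ≤ y < 2626`;
its colouring is symmetric under `x ↦ -x`, and its kernel-checked description is in the
files `KingData`, `KingDefs` and `KingCk0`, ..., `KingCk9`.
-/

namespace Vale.Agent.Lib.P015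

/-- Row `j` of the strip: colouring mask and `bad` mask. -/
def kRow (j : ℕ) : ℕ × ℕ := (decB (kingData.getD j 0), bad (655 + j))

theorem chunk_pairs (s n : ℕ) (hck : chain (chunkRows s n) = true) (hs : s + n < 1971)
    (j : ℕ) (h1 : s ≤ j) (h2 : j < s + n) : pairOK (kRow j) (kRow (j + 1)) = true := by
  unfold chunkRows at hck
  have hlen : ((kingData.drop s).take (n + 1)).length = n + 1 := by
    rw [List.length_take, List.length_drop, kingData_length]; omega
  have key := chain_spec _ _ hck (j - s) (by rw [hlen]; omega)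
  have g1 : ((kingData.drop s).take (n + 1)).getD (j - s) 0 = kingData.getD j 0 := by
    rw [List.getD_eq_getElem?_getD, List.getD_eq_getElem?_getD, List.getElem?_take,
      List.getElem?_drop, if_pos (by omega)]
    congr 2; omega
  have g2 : ((kingData.drop s).take (n + 1)).getD (j - s + 1) 0 = kingData.getD (j + 1) 0 := by
    rw [List.getD_eq_getElem?_getD, List.getD_eq_getElem?_getD, List.getElem?_take,
      List.getElem?_drop, if_pos (by omega)]
    congr 2; omega
  have e1 : 655 + s + (j - s) = 655 + j := by omega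
  rw [g1, g2, e1] at key
  exact key

/-- All consecutive pairs of rows of the strip pass the check. -/
theorem pair_all (j : ℕ) (hj : j < 1970) : pairOK (kRow j) (kRow (j + 1)) = true := by
  by_cases h0 : j < 50
  · exact chunk_pairs 0 50 kingChunk0 (by norm_num) j (by omega) (by omega)
  by_cases h1 : j < 100
  · exact chunk_pairs 50 50 kingChunk1 (by norm_num) j (by omega) (by omega)
  by_cases h2 : j < 150
  · exact chunk_pairs 100 50 kingChunk2 (by norm_num) j (by omega) (by omega)
  by_cases h3 : j < 200
  · exact chunk_pairs 150 50 kingChunk3 (by norm_num) j (by omega) (by omega)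
  by_cases h4 : j < 250
  · exact chunk_pairs 200 50 kingChunk4 (by norm_num) j (by omega) (by omega)
  by_cases h5 : j < 300
  · exact chunk_pairs 250 50 kingChunk5 (by norm_num) j (by omega) (by omega)
  by_cases h6 : j < 350
  · exact chunk_pairs 300 50 kingChunk6 (by norm_num) j (by omega) (by omega)
  by_cases h7 : j < 400
  · exact chunk_pairs 350 50 kingChunk7 (by norm_num) j (by omega) (by omega)
  by_cases h8 : j < 450
  · exact chunk_pairs 400 50 kingChunk8 (by norm_num) j (by omega) (by omega)
  by_cases h9 : j < 500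
  · exact chunk_pairs 450 50 kingChunk9 (by norm_num) j (by omega) (by omega)
  by_cases h10 : j < 550
  · exact chunk_pairs 500 50 kingChunk10 (by norm_num) j (by omega) (by omega)
  by_cases h11 : j < 600
  · exact chunk_pairs 550 50 kingChunk11 (by norm_num) j (by omega) (by omega)
  by_cases h12 : j < 650
  · exact chunk_pairs 600 50 kingChunk12 (by norm_num) j (by omega) (by omega)
  by_cases h13 : j < 700
  · exact chunk_pairs 650 50 kingChunk13 (by norm_num) j (by omega) (by omega)
  by_cases h14 : j < 750
  · exact chunk_pairs 700 50 kingChunk14 (by norm_num) j (by omega) (by omega)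
  by_cases h15 : j < 800
  · exact chunk_pairs 750 50 kingChunk15 (by norm_num) j (by omega) (by omega)
  by_cases h16 : j < 850
  · exact chunk_pairs 800 50 kingChunk16 (by norm_num) j (by omega) (by omega)
  by_cases h17 : j < 900
  · exact chunk_pairs 850 50 kingChunk17 (by norm_num) j (by omega) (by omega)
  by_cases h18 : j < 950
  · exact chunk_pairs 900 50 kingChunk18 (by norm_num) j (by omega) (by omega)
  by_cases h19 : j < 1000
  · exact chunk_pairs 950 50 kingChunk19 (by norm_num) j (by omega) (by omega)
  by_cases h20 : j < 1050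
  · exact chunk_pairs 1000 50 kingChunk20 (by norm_num) j (by omega) (by omega)
  by_cases h21 : j < 1100
  · exact chunk_pairs 1050 50 kingChunk21 (by norm_num) j (by omega) (by omega)
  by_cases h22 : j < 1150
  · exact chunk_pairs 1100 50 kingChunk22 (by norm_num) j (by omega) (by omega)
  by_cases h23 : j < 1200
  · exact chunk_pairs 1150 50 kingChunk23 (by norm_num) j (by omega) (by omega)
  by_cases h24 : j < 1250
  · exact chunk_pairs 1200 50 kingChunk24 (by norm_num) j (by omega) (by omega)
  by_cases h25 : j < 1300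
  · exact chunk_pairs 1250 50 kingChunk25 (by norm_num) j (by omega) (by omega)
  by_cases h26 : j < 1350
  · exact chunk_pairs 1300 50 kingChunk26 (by norm_num) j (by omega) (by omega)
  by_cases h27 : j < 1400
  · exact chunk_pairs 1350 50 kingChunk27 (by norm_num) j (by omega) (by omega)
  by_cases h28 : j < 1450
  · exact chunk_pairs 1400 50 kingChunk28 (by norm_num) j (by omega) (by omega)
  by_cases h29 : j < 1500
  · exact chunk_pairs 1450 50 kingChunk29 (by norm_num) j (by omega) (by omega)
  by_cases h30 : j < 1550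
  · exact chunk_pairs 1500 50 kingChunk30 (by norm_num) j (by omega) (by omega)
  by_cases h31 : j < 1600
  · exact chunk_pairs 1550 50 kingChunk31 (by norm_num) j (by omega) (by omega)
  by_cases h32 : j < 1650
  · exact chunk_pairs 1600 50 kingChunk32 (by norm_num) j (by omega) (by omega)
  by_cases h33 : j < 1700
  · exact chunk_pairs 1650 50 kingChunk33 (by norm_num) j (by omega) (by omega)
  by_cases h34 : j < 1750
  · exact chunk_pairs 1700 50 kingChunk34 (by norm_num) j (by omega) (by omega)
  by_cases h35 : j < 1800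
  · exact chunk_pairs 1750 50 kingChunk35 (by norm_num) j (by omega) (by omega)
  by_cases h36 : j < 1850
  · exact chunk_pairs 1800 50 kingChunk36 (by norm_num) j (by omega) (by omega)
  by_cases h37 : j < 1900
  · exact chunk_pairs 1850 50 kingChunk37 (by norm_num) j (by omega) (by omega)
  by_cases h38 : j < 1950
  · exact chunk_pairs 1900 50 kingChunk38 (by norm_num) j (by omega) (by omega)
  exact chunk_pairs 1950 20 kingChunk39 (by norm_num) j (by omega) (by omega)

/-- Colouring bit of column `a` in row `j` of the strip. -/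
def Bn (a j : ℕ) : Bool := (decB (kingData.getD j 0)).testBit a

/-- `bad` bit of column `a` in row `j` of the strip. -/
def Dn (a j : ℕ) : Bool := (bad (655 + j)).testBit a

theorem k_row (j a : ℕ) (hj : j < 1971) (ha : a < 336472) (h0 : Dn a j = false)
    (h1 : Dn (a + 1) j = false) : Bn a j = Bn (a + 1) j := by
  by_cases h : j < 1970
  · exact rowOK_spec (pairOK_spec (pair_all j h)).1 a ha h0 h1
  · obtain ⟨i, rfl⟩ : ∃ i, j = i + 1 := ⟨j - 1, by omega⟩
    exact rowOK_spec (pairOK_spec (pair_all i (by omega))).2.1 a ha h0 h1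

theorem k_vert (j a : ℕ) (hj : j < 1970) (ha : a ≤ 336472) (h0 : Dn a j = false)
    (h1 : Dn a (j + 1) = false) : Bn a j = Bn a (j + 1) :=
  (pairOK_spec (pair_all j hj)).2.2.1 a ha h0 h1

theorem k_diag1 (j a : ℕ) (hj : j < 1970) (ha : a < 336472) (h0 : Dn a j = false)
    (h1 : Dn (a + 1) (j + 1) = false) : Bn a j = Bn (a + 1) (j + 1) :=
  (pairOK_spec (pair_all j hj)).2.2.2.1 a ha h0 h1

theorem k_diag2 (j a : ℕ) (hj : j < 1970) (ha : a < 336472) (h0 : Dn (a + 1) j = false)
    (h1 : Dn a (j + 1) = false) : Bn (a + 1) j = Bn a (j + 1) :=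
  (pairOK_spec (pair_all j hj)).2.2.2.2 a ha h0 h1

/-- No king step between two good cells of the folded strip crosses the colouring. -/
theorem kcl (a b j j' : ℕ) (ha : a ≤ 336472) (hb : b ≤ 336472)
    (hab : a = b ∨ a = b + 1 ∨ b = a + 1) (hj : j < 1971) (hj' : j' < 1971)
    (hjj : j = j' ∨ j' = j + 1 ∨ j = j' + 1) (h0 : Dn a j = false) (h1 : Dn b j' = false) :
    Bn a j = Bn b j' := by
  rcases hjj with rfl | rfl | rfl <;> rcases hab with rfl | rfl | rfl
  · rfl
  · exact (k_row j b hj (by omega) h1 h0).symm
  · exact k_row j a hj (by omega) h0 h1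
  · exact k_vert j a (by omega) ha h0 h1
  · exact k_diag2 j b (by omega) (by omega) h0 h1
  · exact k_diag1 j a (by omega) (by omega) h0 h1
  · exact (k_vert j' a (by omega) ha h1 h0).symm
  · exact (k_diag1 j' b (by omega) (by omega) h1 h0).symm
  · exact (k_diag2 j' a (by omega) (by omega) h1 h0).symm

/-- Fold an integer column into `0 ≤ a ≤ 336472` by the period `672945` and the
reflection `x ↦ -x`. -/
def foldK (x : ℤ) : ℕ :=
  if (x % 672945).toNat ≤ 336472 then (x % 672945).toNat else 672945 - (x % 672945).toNat

theorem foldK_le (x : ℤ) : foldK x ≤ 336472 := by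
  unfold foldK
  split_ifs <;> omega

theorem foldK_succ (x : ℤ) :
    foldK x = foldK (x + 1) ∨ foldK x = foldK (x + 1) + 1 ∨ foldK (x + 1) = foldK x + 1 := by
  unfold foldK
  split_ifs <;> omega

theorem foldK_sq (x : ℤ) : ∃ k : ℤ, x ^ 2 = ((foldK x : ℕ) : ℤ) ^ 2 + k * 672945 := by
  have hx : x = x % 672945 + 672945 * (x / 672945) := (Int.emod_add_mul_ediv x 672945).symm
  have hr0 : 0 ≤ x % 672945 := Int.emod_nonneg x (by norm_num)
  have hr1 : x % 672945 < 672945 := Int.emod_lt_of_pos x (by norm_num)
  unfold foldK
  generalize x % 672945 = r at *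
  generalize x / 672945 = q at *
  split_ifs with h
  · refine ⟨2 * r * q + 672945 * q ^ 2, ?_⟩
    rw [Int.toNat_of_nonneg hr0, hx]; ring
  · refine ⟨-2 * (672945 - r) * (q + 1) + 672945 * (q + 1) ^ 2, ?_⟩
    have hle : r.toNat ≤ 672945 := by omega
    rw [Nat.cast_sub hle, Int.toNat_of_nonneg hr0, hx]
    push_cast
    ring

/-- The periodic set of lattice points. -/
def SK (x y : ℤ) : Prop := Int.gcd (x ^ 2 + y ^ 2) ((672945 : ℕ) : ℤ) = 1

/-- King steps (and the zero step). -/
def stepK (dx dy : ℤ) : Prop := |dx| ≤ 1 ∧ |dy| ≤ 1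

/-- The barrier colouring on integer coordinates. -/
def BK (x y : ℤ) : Prop := Bn (foldK x) (y - 655).toNat = true

theorem SK_iff (x y : ℤ) (hy : 0 ≤ y) :
    SK x y ↔ (bad y.toNat).testBit (foldK x) = false := by
  unfold SK
  rw [testBit_bad _ _ (foldK_le x)]
  obtain ⟨k, hk⟩ := foldK_sq x
  have e : x ^ 2 + y ^ 2 = (((foldK x * foldK x + y.toNat * y.toNat : ℕ)) : ℤ) +
      k * ((672945 : ℕ) : ℤ) := by
    push_cast
    rw [Int.toNat_of_nonneg hy, hk]; ring
  rw [e, Int.gcd_add_mul_right_left, Int.gcd_natCast_natCast]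

/-- The king graph on the points coprime to 672945 has no infinite injective path. -/
theorem coreKing (p : ℕ → ℤ × ℤ)
    (hS : ∀ n, Int.gcd ((p n).1 ^ 2 + (p n).2 ^ 2) ((672945 : ℕ) : ℤ) = 1)
    (hstep : ∀ n, stepK ((p (n + 1)).1 - (p n).1) ((p (n + 1)).2 - (p n).2)) :
    ¬ Function.Injective p := by
  refine no_infinite_path SK stepK BK 672945 1971 1 655 (by norm_num) (by norm_num)
    ?_ ?_ ?_ ?_ ?_ ?_ ?_ p hS hstep
  · intro k x y
    unfold SK
    have := gcd_per ((672945 : ℕ) : ℤ) k x y
    simp only [Nat.cast_ofNat] at this ⊢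
    rw [this]
  · intro x y h
    unfold SK at h ⊢
    rw [add_comm]; exact h
  · intro dx dy h
    exact ⟨h.2, h.1⟩
  · intro dx dy h
    exact h.2
  · intro x y h1 h2 hs
    have hy : y = 655 := by omega
    subst hy
    have hD := (SK_iff x 655 (by norm_num)).1 hs
    have e : ((655 : ℤ)).toNat = 655 := rfl
    rw [e] at hD
    have hb := subB_spec kingBottom (foldK x) (by
      rw [testBit_fullH1]
      have := foldK_le x
      simp only [decide_eq_true_eq]; omega)
    rw [Nat.testBit_or, hD, Bool.or_false] at hb
    exact hb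
  · intro x y h1 h2 hs
    have hy : y = 2625 := by omega
    subst hy
    have hD := (SK_iff x 2625 (by norm_num)).1 hs
    have e : ((2625 : ℤ)).toNat = 655 + 1970 := rfl
    rw [e] at hD
    intro hB
    have hB' : (decB (kingData.getD 1970 0)).testBit (foldK x) = true := hB
    have hb := subB_spec kingTop (foldK x) (by
      rw [Nat.testBit_and, hB', testBit_fullH1]
      have := foldK_le x
      simp only [Bool.true_and, decide_eq_true_eq]; omega)
    rw [hD] at hb
    exact Bool.false_ne_true hb
  · intro x y dx dy h1 h2 h3 h4 hs hs' hU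
    obtain ⟨hdx, hdy⟩ := hU
    rw [abs_le] at hdx hdy
    have hj : (y - 655).toNat < 1971 := by omega
    have hj' : (y + dy - 655).toNat < 1971 := by omega
    have hjj : (y - 655).toNat = (y + dy - 655).toNat ∨
        (y + dy - 655).toNat = (y - 655).toNat + 1 ∨
        (y - 655).toNat = (y + dy - 655).toNat + 1 := by omega
    have hab : foldK x = foldK (x + dx) ∨ foldK x = foldK (x + dx) + 1 ∨
        foldK (x + dx) = foldK x + 1 := by
      have hdx' : dx = -1 ∨ dx = 0 ∨ dx = 1 := by omega
      rcases hdx' with rfl | rfl | rfl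
      · have h := foldK_succ (x + -1)
        rw [neg_add_cancel_right] at h
        omega
      · simp
      · exact foldK_succ x
    have hD0 : Dn (foldK x) (y - 655).toNat = false := by
      have h := (SK_iff x y (by omega)).1 hs
      have e : y.toNat = 655 + (y - 655).toNat := by omega
      rw [e] at h
      exact h
    have hD1 : Dn (foldK (x + dx)) (y + dy - 655).toNat = false := by
      have h := (SK_iff (x + dx) (y + dy) (by omega)).1 hs'
      have e : (y + dy).toNat = 655 + (y + dy - 655).toNat := by omega
      rw [e] at h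
      exact h
    have key := kcl (foldK x) (foldK (x + dx)) (y - 655).toNat (y + dy - 655).toNat
      (foldK_le _) (foldK_le _) hab hj hj' hjj hD0 hD1
    unfold BK
    rw [key]

end Vale.Agent.Lib.P015
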