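import Mathlib
import Vale.Agent.Lib.P015.Gauss
import Vale.Agent.Lib.P015.KingSpec

/-!
# Walks on Gaussian primes with king steps scaled by `d`
-/

namespace Vale.Agent.Lib.P015

/-- For `d` coprime to `672945 = 3 * 5 * 7 * 13 * 17 * 29` there is no infinite sequence of
pairwise distinct Gaussian primes all of whose steps are `d * u` with `|re u|, |im u| ≤ 1`. -/
theorem king_walk (d : GaussianInt) (hd : IsCoprime d 672945) (z : ℕ → GaussianInt)
    (hz : ∀ n, Prime (z n)) (hinj : Function.Injective z) :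
    ¬ ∀ n, ∃ u : GaussianInt, |u.re| ≤ 1 ∧ |u.im| ≤ 1 ∧ z (n + 1) - z n = d * u := by
  intro h
  refine no_walk_of_core 672945 (by norm_num) stepK coreKing d (by simpa using hd) z hz hinj ?_
  intro n
  obtain ⟨u, h1, h2, h3⟩ := h n
  exact ⟨u, ⟨h1, h2⟩, h3⟩

/-- The same for a tail of the sequence. -/
theorem king_walk_tail (d : GaussianInt) (hd : IsCoprime d 672945) (z : ℕ → GaussianInt)
    (hz : ∀ n, Prime (z n)) (hinj : Function.Injective z) (N : ℕ) :
    ¬ ∀ n, N ≤ n → ∃ u : GaussianInt, |u.re| ≤ 1 ∧ |u.im| ≤ 1 ∧ z (n + 1) - z n = d * u := by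
  intro h
  refine king_walk d hd (fun n => z (N + n)) (fun n => hz _) ?_ ?_
  · intro a b hab
    have := hinj hab
    omega
  · intro n
    have := h (N + n) (by omega)
    simpa [add_assoc] using this

theorem two_coprime : IsCoprime (2 : GaussianInt) 672945 :=
  ⟨-336472, 1, by norm_num⟩

theorem one_add_i_coprime : IsCoprime (⟨1, 1⟩ : GaussianInt) 672945 := by
  refine ⟨⟨1, -1⟩ * (-336472), 1, ?_⟩
  have h : (⟨1, -1⟩ : GaussianInt) * ⟨1, 1⟩ = 2 := by
    apply Zsqrtd.ext <;> simp [Zsqrtd.re_mul, Zsqrtd.im_mul]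
  calc (⟨1, -1⟩ : GaussianInt) * (-336472) * ⟨1, 1⟩ + 1 * 672945
      = (⟨1, -1⟩ * ⟨1, 1⟩) * (-336472) + 672945 := by ring
    _ = 1 := by rw [h]; norm_num

end Vale.Agent.Lib.P015
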