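import Mathlib
import Vale.Agent.Lib.P015.KingMain

namespace Vale.Agent.Lib.P015


/-- Eventually all terms of an injective sequence of Gaussian primes have odd norm. -/
theorem sqrt8_odd_tail (z : ℕ → GaussianInt) (hz : ∀ n, Prime (z n)) (hinj : Function.Injective z) :
    ∃ N, ∀ n, N ≤ n → (z n).norm % 2 = 1 := by
  have hfin : (z ⁻¹' {w : GaussianInt | w.norm ≤ ((2 : ℕ) : ℤ) ^ 2}).Finite :=
    Set.Finite.preimage hinj.injOn (finite_norm_le (((2 : ℕ) : ℤ) ^ 2))
  obtain ⟨N, hN⟩ := hfin.bddAbove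
  refine ⟨N + 1, fun n hn => ?_⟩
  by_contra hodd
  have hne : Int.gcd (z n).norm ((2 : ℕ) : ℤ) ≠ 1 := by
    intro h1
    have h2 : (z n).norm % 2 = 0 := by omega
    have h3 : (2 : ℤ) ∣ (z n).norm := Int.dvd_of_emod_eq_zero h2
    have h4 : (2 : ℤ) ∣ ((Int.gcd (z n).norm ((2 : ℕ) : ℤ) : ℕ) : ℤ) :=
      Int.dvd_coe_gcd h3 (by norm_num)
    rw [h1] at h4
    norm_num at h4
  have hmem : n ∈ z ⁻¹' {w : GaussianInt | w.norm ≤ ((2 : ℕ) : ℤ) ^ 2} :=
    norm_le_of_gcd_ne_one 2 (by norm_num) _ (hz n) hne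
  have := hN hmem
  omega

/-- Integer vectors of even coordinate sum and squared length at most `8`. -/
theorem sqrt8_shape_int (x y : ℤ) (hpar : (x + y) % 2 = 0) (h8 : x * x + y * y ≤ 8)
    (hne : ¬ (x = 0 ∧ y = 0)) :
    (x * x + y * y = 2 ∨ x * x + y * y = 4 ∨ x * x + y * y = 8) ∧
    (x * x + y * y ≠ 2 → x % 2 = 0 ∧ y % 2 = 0 ∧ -2 ≤ x ∧ x ≤ 2 ∧ -2 ≤ y ∧ y ≤ 2) ∧
    (x * x + y * y ≠ 8 → -2 ≤ x + y ∧ x + y ≤ 2 ∧ -2 ≤ y - x ∧ y - x ≤ 2) := by
  have hr1 : -2 ≤ x := by nlinarith [mul_self_nonneg y]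
  have hr2 : x ≤ 2 := by nlinarith [mul_self_nonneg y]
  have hi1 : -2 ≤ y := by nlinarith [mul_self_nonneg x]
  have hi2 : y ≤ 2 := by nlinarith [mul_self_nonneg x]
  interval_cases x <;> interval_cases y <;> omega

/-- The shape of a step of norm at most `8` between two Gaussian integers of odd norm. -/
theorem sqrt8_step_shape (a b : GaussianInt) (ha : a.norm % 2 = 1) (hb : b.norm % 2 = 1)
    (hab : b ≠ a) (h8 : (b - a).norm ≤ 8) :
    ((b - a).norm ≠ 2 → ∃ u : GaussianInt, |u.re| ≤ 1 ∧ |u.im| ≤ 1 ∧ b - a = 2 * u) ∧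
    ((b - a).norm ≠ 8 → ∃ u : GaussianInt, |u.re| ≤ 1 ∧ |u.im| ≤ 1 ∧ b - a = ⟨1, 1⟩ * u) := by
  have hs : b = a + (b - a) := by ring
  have hne : b - a ≠ 0 := sub_ne_zero.2 hab
  generalize b - a = s at *
  subst hs
  rw [Zsqrtd.norm_def] at ha hb h8 ⊢
  simp only [Zsqrtd.re_add, Zsqrtd.im_add] at hb
  have hpar : (s.re + s.im) % 2 = 0 := by
    have h1 : (a.re * a.re + a.im * a.im) % 2 = (a.re + a.im) % 2 := by
      rcases Int.emod_two_eq_zero_or_one a.re with h | h <;>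
      rcases Int.emod_two_eq_zero_or_one a.im with h' | h' <;>
      simp [Int.add_emod, Int.mul_emod, h, h']
    have h2 : ((a.re + s.re) * (a.re + s.re) + (a.im + s.im) * (a.im + s.im)) % 2 =
        (a.re + s.re + (a.im + s.im)) % 2 := by
      rcases Int.emod_two_eq_zero_or_one (a.re + s.re) with h | h <;>
      rcases Int.emod_two_eq_zero_or_one (a.im + s.im) with h' | h' <;>
      simp [Int.add_emod, Int.mul_emod, h, h']
    simp only [Int.reduceNeg, neg_mul, one_mul, sub_neg_eq_add] at ha hb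
    omega
  have hne' : ¬ (s.re = 0 ∧ s.im = 0) := fun h => hne (Zsqrtd.ext h.1 h.2)
  have h8' : s.re * s.re + s.im * s.im ≤ 8 := by linarith
  obtain ⟨-, h2, h3⟩ := sqrt8_shape_int s.re s.im hpar h8' hne'
  have e : s.re * s.re - -1 * s.im * s.im = s.re * s.re + s.im * s.im := by ring
  rw [e]
  constructor
  · intro hn
    obtain ⟨e1, e2, b1, b2, b3, b4⟩ := h2 hn
    refine ⟨⟨s.re / 2, s.im / 2⟩, ?_, ?_, ?_⟩
    · show |s.re / 2| ≤ 1
      rw [abs_le]; constructor <;> omega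
    · show |s.im / 2| ≤ 1
      rw [abs_le]; constructor <;> omega
    · apply Zsqrtd.ext
      · simp only [Zsqrtd.re_mul, Zsqrtd.re_ofNat, Zsqrtd.im_ofNat]
        push_cast
        omega
      · simp only [Zsqrtd.im_mul, Zsqrtd.re_ofNat, Zsqrtd.im_ofNat]
        push_cast
        omega
  · intro hn
    obtain ⟨b1, b2, b3, b4⟩ := h3 hn
    refine ⟨⟨(s.re + s.im) / 2, (s.im - s.re) / 2⟩, ?_, ?_, ?_⟩
    · show |(s.re + s.im) / 2| ≤ 1
      rw [abs_le]; constructor <;> omega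
    · show |(s.im - s.re) / 2| ≤ 1
      rw [abs_le]; constructor <;> omega
    · apply Zsqrtd.ext
      · simp only [Zsqrtd.re_mul]
        omega
      · simp only [Zsqrtd.im_mul]
        omega

/-- In every infinite sequence of pairwise distinct Gaussian primes whose successive
distances are at most `√8`, infinitely many steps have length exactly `√2` and infinitely
many steps have length exactly `√8`.  (`Zsqrtd.norm` is the squared length.) -/
theorem sqrt8_walk (z : ℕ → GaussianInt) (hz : ∀ n, Prime (z n)) (hinj : Function.Injective z)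
    (hstep : ∀ n, (z (n + 1) - z n).norm ≤ 8) :
    (∀ N, ∃ n, N ≤ n ∧ (z (n + 1) - z n).norm = 2) ∧
    (∀ N, ∃ n, N ≤ n ∧ (z (n + 1) - z n).norm = 8) := by
  obtain ⟨N0, hN0⟩ := sqrt8_odd_tail z hz hinj
  have hshape : ∀ n, N0 ≤ n → _ := fun n hn =>
    sqrt8_step_shape (z n) (z (n + 1)) (hN0 n hn) (hN0 (n + 1) (by omega))
      (fun h => by have := hinj h; omega) (hstep n)
  constructor
  · intro N
    by_contra hcon
    push Not at hcon
    refine king_walk_tail 2 two_coprime z hz hinj (max N N0) ?_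
    intro n hn
    exact (hshape n (le_trans (le_max_right _ _) hn)).1 (hcon n (le_trans (le_max_left _ _) hn))
  · intro N
    by_contra hcon
    push Not at hcon
    refine king_walk_tail ⟨1, 1⟩ one_add_i_coprime z hz hinj (max N N0) ?_
    intro n hn
    exact (hshape n (le_trans (le_max_right _ _) hn)).2 (hcon n (le_trans (le_max_left _ _) hn))

end Vale.Agent.Lib.P015
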